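import Claimed.Agent.R252.Plank.Main

/-!
# Row 252 (Kakeya in R^4), BOX 1 = Lemma 2.15, file 5: the forms used by the consumers      (architect helper69; prefix `pk4_`)      CONTRACT

* `pk4_plank_eta` : the paper's form: `∀ e ∃ η C`, marks `#(inc i) ≥ D^(1-η)`, all other slacks `K`
* `pk4_heavy`     : contrapositive (P2.16 (2.greedy-heavy-plank), L5.1 (5.plank-lower)): if `∑ ω i #(inc i) > C K^10 μ D^e #J` then some full-time plank `1 ≤ a ≤ b ≤ D` carries weight `> μ a b`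
* `pk4_plank_mesh`: the explicit mesh: `D = n ∈ ℕ`, time bins `k < n` with centres `(k + 1/2)/n`, spatial cells `⌊n x⌋ ∈ ℤ × ℤ`, `E_vis` = the set of the visited cells
-/

set_option autoImplicit false

namespace Claimed.Agent.R252

open Claimed.Agent.R255 Claimed.Agent.R227
open scoped BigOperators
open Classical

/-- **Lemma 2.15**, the paper's form (`η` depends on `e` only) -/
theorem pk4_plank_eta (e : ℝ) (he : 0 < e) :
    ∃ η : ℝ, 0 < η ∧ ∃ C : ℝ, 1 ≤ C ∧ ∀ (D K : ℝ), 1 ≤ D → 1 ≤ K → ∀ (ι J : Type) [Fintype ι] [Fintype J] (ω : ι → ℝ)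
      (V A : ι → ℝ × ℝ) (tc : J → ℝ) (xc : J → ℝ × ℝ) (inc : ι → Finset J) (Ac : ℝ),
      (∀ i, 0 ≤ ω i) → pk4Cap D Ac ω V A →
      (∀ i, |(V i).1| ≤ K ∧ |(V i).2| ≤ K ∧ |(A i).1| ≤ K ∧ |(A i).2| ≤ K) →
      (∀ i, ∀ j ∈ inc i, 0 ≤ tc j ∧ tc j ≤ 1) →
      (∀ i, ∀ j ∈ inc i, |(A i + tc j • V i - xc j).1| ≤ K / D ∧ |(A i + tc j • V i - xc j).2| ≤ K / D) →
      (∀ i (s : ℝ), (((inc i).filter fun j => s ≤ tc j ∧ tc j < s + 1 / D).card : ℝ) ≤ K) →
      (∀ i, D ^ (1 - η) ≤ ((inc i).card : ℝ)) →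
      ∑ i, ω i * ((inc i).card : ℝ) ≤ C * K ^ 10 * Ac * D ^ e * (Fintype.card J : ℝ) := by
  obtain ⟨C, hC, H⟩ := pk4_plank (e / 2) (by positivity)
  refine ⟨e / 20, by positivity, C, hC, ?_⟩
  intro D K hD hK ι J _ _ ω V A tc xc inc Ac hω hcap hch htime hvis hmult hlong
  have hD0 : 0 < D := by linarith
  have hp1 : 1 ≤ D ^ (e / 20) := Real.one_le_rpow hD (by positivity)
  have hp0 : 0 < D ^ (e / 20) := by linarith
  have hK0 : 0 < K := by linarith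
  have hKK : K ≤ K * D ^ (e / 20) := by nlinarith
  have hM : pk4Marks D (K * D ^ (e / 20)) V A tc xc inc := by
    refine ⟨fun i => ?_, htime, fun i j hj => ?_, fun i s => (hmult i s).trans hKK, fun i => ?_⟩
    · obtain ⟨a, b, c, d⟩ := hch i
      exact ⟨a.trans hKK, b.trans hKK, c.trans hKK, d.trans hKK⟩
    · obtain ⟨a, b⟩ := hvis i j hj
      have h1 : K / D ≤ K * D ^ (e / 20) / D := div_le_div_of_nonneg_right hKK hD0.le
      exact ⟨a.trans h1, b.trans h1⟩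
    · refine le_trans ?_ (hlong i)
      have h1 : D ^ (1 - e / 20) = D / D ^ (e / 20) := by
        rw [Real.rpow_sub hD0, Real.rpow_one]
      rw [h1, mul_comm K, ← div_div]
      exact div_le_self (by positivity) hK
  have h1 := H D (K * D ^ (e / 20)) hD (hK.trans hKK) ι J ω V A tc xc inc Ac hω hcap hM
  refine h1.trans (le_of_eq ?_)
  have h2 : (D ^ (e / 20)) ^ 10 * D ^ (e / 2) = D ^ e := by
    rw [← Real.rpow_natCast, ← Real.rpow_mul hD0.le, ← Real.rpow_add hD0]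
    congr 1
    push_cast
    ring
  rw [mul_pow]
  calc C * (K ^ 10 * (D ^ (e / 20)) ^ 10) * Ac * D ^ (e / 2) * (Fintype.card J : ℝ)
      = C * K ^ 10 * Ac * ((D ^ (e / 20)) ^ 10 * D ^ (e / 2)) * (Fintype.card J : ℝ) := by ring
    _ = _ := by rw [h2]

/-- **Lemma 2.15**, contrapositive: a heavy plank -/
theorem pk4_heavy (e : ℝ) (he : 0 < e) :
    ∃ C : ℝ, 1 ≤ C ∧ ∀ (D K : ℝ), 1 ≤ D → 1 ≤ K → ∀ (ι J : Type) [Fintype ι] [Fintype J] (ω : ι → ℝ)
      (V A : ι → ℝ × ℝ) (tc : J → ℝ) (xc : J → ℝ × ℝ) (inc : ι → Finset J) (μ : ℝ),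
      (∀ i, 0 ≤ ω i) → pk4Marks D K V A tc xc inc →
      C * K ^ 10 * μ * D ^ e * (Fintype.card J : ℝ) < ∑ i, ω i * ((inc i).card : ℝ) →
      ∃ (a b th : ℝ) (c v : ℝ × ℝ), 1 ≤ a ∧ a ≤ b ∧ b ≤ D ∧
        μ * a * b < ∑ i with pk4In (b / D) (a / D) th c v (A i) (V i), ω i := by
  obtain ⟨C, hC, H⟩ := pk4_plank e he
  refine ⟨C, hC, ?_⟩
  intro D K hD hK ι J _ _ ω V A tc xc inc μ hω hM hlt
  by_contra hc
  push Not at hc
  have hcap : pk4Cap D μ ω V A := fun a b th c v ha hab hb => hc a b th c v ha hab hb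
  exact absurd (H D K hD hK ι J ω V A tc xc inc μ hω hcap hM) (not_le.2 hlt)

/-- the mesh cell visited by the trace `(A, V)` at the centre of the time bin `k` of the mesh `1/n` -/
noncomputable def pk4Cell (n : ℕ) (A V : ℝ × ℝ) (k : ℕ) : ℕ × ℤ × ℤ :=
  (k, ⌊(A + (((k : ℝ) + 1 / 2) / n) • V).1 * n⌋, ⌊(A + (((k : ℝ) + 1 / 2) / n) • V).2 * n⌋)

/-- the set of the visited cells -/
noncomputable def pk4Vis {ι : Type} [Fintype ι] (n : ℕ) (V A : ι → ℝ × ℝ) (Jm : ι → Finset ℕ) : Finset (ℕ × ℤ × ℤ) :=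
  Finset.univ.biUnion fun i => (Jm i).image (pk4Cell n (A i) (V i))

theorem pk4_exit_eqns_cite : True := by
  have := @pk4Cell.eq_1
  have := @pk4Vis.eq_1
  trivial

/-- a real number is within `1/(2n)` of the centre of its mesh cell -/
theorem pk4_mesh_centre (n : ℕ) (hn : 1 ≤ n) (K : ℝ) (hK : 1 ≤ K) (x : ℝ) : |x - ((⌊x * n⌋ : ℝ) + 1 / 2) / n| ≤ K / n := by
  have hn0 : (0 : ℝ) < n := by exact_mod_cast hn
  have h1 := Int.floor_le (x * n)
  have h2 := Int.lt_floor_add_one (x * n)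
  have e : x - ((⌊x * n⌋ : ℝ) + 1 / 2) / n = (x * n - ((⌊x * n⌋ : ℝ) + 1 / 2)) / n := by
    field_simp
  rw [e, abs_div, abs_of_pos hn0]
  apply div_le_div_of_nonneg_right _ hn0.le
  rw [abs_le]
  constructor <;> linarith

/-- **L-252-PLANK-X1**  the explicit mesh form of Lemma 2.15.
PROOF.  `C` from `pk4_plank e he`.   `D = n`, `J := ↥(pk4Vis n V A Jm)`, `tc j = (j.1.1 + 1/2)/n`, `xc j = ((j.1.2.1 + 1/2)/n, (j.1.2.2 + 1/2)/n)`,
`inc i := (Jm i).attach.image (fun k => ⟨pk4Cell n (A i) (V i) k, _⟩)` (or `Finset.univ.filter (fun j => j.1 ∈ (Jm i).image (pk4Cell ..))`);   `#(inc i) = #(Jm i)` (the first component of `pk4Cell` is `k` : injective).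
`pk4Marks n K` : `chart = hch`;  `time` : `0 ≤ (k + 1/2)/n ≤ 1` for `k < n`;  `vis` : `|x - (⌊x n⌋ + 1/2)/n| ≤ 1/(2n) ≤ K / n` (`Int.floor_le`, `Int.lt_floor_add_one`);
`mult` : two marks of `i` in a window `[s, s + 1/n)` have `|k - k'| < 1`, so `k = k'` and the cells agree: card `≤ 1 ≤ K` (`Finset.card_le_one`);  `long = hlong`.   `Fintype.card ↥S = S.card` (`Fintype.card_coe`). -/
theorem pk4_plank_mesh (e : ℝ) (he : 0 < e) :
    ∃ C : ℝ, 1 ≤ C ∧ ∀ (n : ℕ) (K : ℝ), 1 ≤ n → 1 ≤ K → ∀ (ι : Type) [Fintype ι] (ω : ι → ℝ) (V A : ι → ℝ × ℝ)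
      (Jm : ι → Finset ℕ) (Ac : ℝ),
      (∀ i, 0 ≤ ω i) → pk4Cap (n : ℝ) Ac ω V A →
      (∀ i, |(V i).1| ≤ K ∧ |(V i).2| ≤ K ∧ |(A i).1| ≤ K ∧ |(A i).2| ≤ K) →
      (∀ i, ∀ k ∈ Jm i, k < n) → (∀ i, (n : ℝ) / K ≤ ((Jm i).card : ℝ)) →
      ∑ i, ω i * ((Jm i).card : ℝ) ≤ C * K ^ 10 * Ac * (n : ℝ) ^ e * ((pk4Vis n V A Jm).card : ℝ) := by
  obtain ⟨C, hC, H⟩ := pk4_plank e he
  refine ⟨C, hC, ?_⟩
  intro n K hn hK ι _ ω V A Jm Ac hω hcap hch hlt hlong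
  have hn0 : (0 : ℝ) < n := by exact_mod_cast hn
  obtain ⟨inc, hinc⟩ : ∃ inc : ι → Finset ↥(pk4Vis n V A Jm), inc = fun i => ((Jm i).image (pk4Cell n (A i) (V i))).subtype (· ∈ pk4Vis n V A Jm) := ⟨_, rfl⟩
  have hmem : ∀ i (j : ↥(pk4Vis n V A Jm)), j ∈ inc i ↔ ∃ k ∈ Jm i, pk4Cell n (A i) (V i) k = j.1 := by
    intro i j
    rw [hinc, Finset.mem_subtype, Finset.mem_image]
  have hcard : ∀ i, (inc i).card = (Jm i).card := by
    intro i
    rw [hinc, Finset.card_subtype, Finset.filter_true_of_mem, Finset.card_image_of_injective]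
    · intro k k' h
      exact congrArg Prod.fst h
    · intro c hc
      unfold pk4Vis
      rw [Finset.mem_biUnion]
      exact ⟨i, Finset.mem_univ _, hc⟩
  have hM : pk4Marks (n : ℝ) K V A (fun j : ↥(pk4Vis n V A Jm) => ((j.1.1 : ℝ) + 1 / 2) / n)
      (fun j => (((j.1.2.1 : ℝ) + 1 / 2) / n, ((j.1.2.2 : ℝ) + 1 / 2) / n)) inc := by
    refine ⟨hch, fun i j hj => ?_, fun i j hj => ?_, fun i s => ?_, fun i => ?_⟩
    · obtain ⟨k, hk, hkj⟩ := (hmem i j).1 hj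
      have e1 : j.1.1 = k := by rw [← hkj]; rfl
      have h1 : (k : ℝ) + 1 ≤ n := by exact_mod_cast hlt i k hk
      simp only [e1]
      constructor
      · positivity
      · rw [div_le_one hn0]
        linarith
    · obtain ⟨k, hk, hkj⟩ := (hmem i j).1 hj
      have e1 : j.1.1 = k := by rw [← hkj]; rfl
      have e2 : j.1.2.1 = ⌊(A i + (((k : ℝ) + 1 / 2) / n) • V i).1 * n⌋ := by rw [← hkj]; rfl
      have e3 : j.1.2.2 = ⌊(A i + (((k : ℝ) + 1 / 2) / n) • V i).2 * n⌋ := by rw [← hkj]; rfl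
      simp only [e1, e2, e3, Prod.fst_sub, Prod.snd_sub]
      exact ⟨pk4_mesh_centre n hn K hK _, pk4_mesh_centre n hn K hK _⟩
    · refine le_trans ?_ hK
      have : ((inc i).filter fun j : ↥(pk4Vis n V A Jm) => s ≤ ((j.1.1 : ℝ) + 1 / 2) / n ∧ ((j.1.1 : ℝ) + 1 / 2) / n < s + 1 / n).card ≤ 1 := by
        rw [Finset.card_le_one]
        intro j hj j' hj'
        rw [Finset.mem_filter] at hj hj'
        obtain ⟨k, hk, hkj⟩ := (hmem i j).1 hj.1
        obtain ⟨k', hk', hkj'⟩ := (hmem i j').1 hj'.1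
        have e1 : j.1.1 = k := by rw [← hkj]; rfl
        have e1' : j'.1.1 = k' := by rw [← hkj']; rfl
        obtain ⟨a1, a2⟩ := hj.2
        obtain ⟨b1, b2⟩ := hj'.2
        rw [e1] at a1 a2
        rw [e1'] at b1 b2
        have c1 : ((k : ℝ) + 1 / 2) / n - ((k' : ℝ) + 1 / 2) / n < 1 / n := by linarith
        have c2 : ((k' : ℝ) + 1 / 2) / n - ((k : ℝ) + 1 / 2) / n < 1 / n := by linarith
        rw [← sub_div, div_lt_div_iff_of_pos_right hn0] at c1 c2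
        have d1 : (k : ℝ) < (k' : ℝ) + 1 := by linarith
        have d2 : (k' : ℝ) < (k : ℝ) + 1 := by linarith
        have d1' : k < k' + 1 := by exact_mod_cast d1
        have d2' : k' < k + 1 := by exact_mod_cast d2
        have hkk : k = k' := by omega
        apply Subtype.ext
        rw [← hkj, ← hkj', hkk]
      exact_mod_cast this
    · rw [hcard]
      exact hlong i
  have key := H (n : ℝ) K (by exact_mod_cast hn) hK ι ↥(pk4Vis n V A Jm) ω V A _ _ inc Ac hω hcap hM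
  simp only [hcard, Fintype.card_coe] at key
  exact key

end Claimed.Agent.R252
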