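import Claimed.Agent.R252.Plank.Law

/-!
# Row 252 (Kakeya in R^4), BOX 1 = Lemma 2.15, file 3: one instance of (4.5) of the BR paper      (architect helper69; prefix `pk4_`)      CONTRACT

`pk4Sys` : the system with the law `pk4Law` on `ι × J`, particle `i`, time `tc j`;  `pk4Geo` : the read-out of a cell (`a = b = 0`, duration `1`).
* `pk4_score_ge` : `score ≥ (3 log n₀ - log #J - 2 log κ) / ℓ`
* `pk4_tau_le`   : root cap `∑_{i ∈ aperture(b,a)} ω i ≤ R ε^(a+b)`, `#(inc i) ≤ n₁`  `⟹ τ ≤ log (n₁ R / W) / ℓ`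
* `pk4_core`     : `W ≤ n₁ R κ² n₀⁻³ ε^(-(γ+ν)) #J`
Model: `ka_score_ge`, `ka_tau_le`, `ka_core` (`R227/EndA`).
-/

set_option autoImplicit false

namespace Claimed.Agent.R252

open Claimed.Agent.R255 Claimed.Agent.R227
open scoped BigOperators
open Classical

variable {ι J : Type} [Fintype ι] [Fintype J]

/-- the system of a weighted family of marked traces -/
noncomputable def pk4Sys (ω : ι → ℝ) (inc : ι → Finset J) (hω : ∀ i, 0 ≤ ω i) (hW : 0 < pk4W ω inc)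
    (V A : ι → ℝ × ℝ) (tc : J → ℝ) : CSys where
  Ω := ι × J
  fin := inferInstance
  P := pk4Law ω inc hω hW
  ι := ι
  T := Prod.fst
  V := V
  A := A
  c := fun x => tc x.2

/-- the read-out of a cell -/
noncomputable def pk4Geo (tc : J → ℝ) (xc : J → ℝ × ℝ) (j : J) : Geo where
  b := 0
  a := 0
  tc := tc j
  th := 0
  vc := 0
  xc := xc j

theorem pk4_core_eqns_cite : True := by
  have := @pk4Sys.eq_1
  have := @pk4Geo.eq_1
  trivial

variable (ω : ι → ℝ) (inc : ι → Finset J) (hω : ∀ i, 0 ≤ ω i) (hW : 0 < pk4W ω inc)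
  (V A : ι → ℝ × ℝ) (tc : J → ℝ) (xc : J → ℝ × ℝ)

/-- lower bound of the score -/
theorem pk4_score_ge {γ ε n₀ κ : ℝ} (hε0 : 0 < ε) (hε1 : ε < 1) (hn₀ : 0 < n₀)
    (hn : ∀ i, n₀ ≤ ((inc i).card : ℝ)) (hκ0 : 0 < κ)
    (hκ : ∀ i (k : ℤ), (((inc i).filter fun j => tcell ε 1 (tc j) = k).card : ℝ) ≤ κ) :
    (- Real.log ((Fintype.card J : ℝ) / n₀) + 2 * Real.log (n₀ / κ)) / lg ε ≤
      (pk4Sys ω inc hω hW V A tc).score γ ε 1 (Γ := J) Prod.snd (pk4Geo tc xc) := by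
  have hℓ := ka_lg_pos hε0 hε1
  have h1 := pk4_mi_le ω inc hω hW hn₀ hn
  have h2 := pk4_entC_ge ω inc hω hW (fun j => tcell ε 1 (tc j)) hn₀ hn hκ0 (by
    intro i k
    convert hκ i k)
  unfold CSys.score CSys.St
  have e1 : (pk4Sys ω inc hω hW V A tc).P.ev (fun x => wt γ (pk4Geo tc xc (Prod.snd x))) = 0 := by
    have : (fun x : (pk4Sys ω inc hω hW V A tc).Ω => wt γ (pk4Geo tc xc (Prod.snd x))) = fun _ => 0 := by
      funext x
      simp [wt, pk4Geo]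
    rw [this, ka_ev_const]
  rw [e1]
  have h3 : (pk4Sys ω inc hω hW V A tc).P.mi (pk4Sys ω inc hω hW V A tc).T (Prod.snd : ι × J → J)
      ≤ Real.log ((Fintype.card J : ℝ) / n₀) := h1
  have h4 : Real.log (n₀ / κ) ≤ (pk4Sys ω inc hω hW V A tc).P.entC ((pk4Sys ω inc hω hW V A tc).Ct ε 1)
      (pk4Sys ω inc hω hW V A tc).T := h2
  have h5 := div_le_div_of_nonneg_right h3 hℓ.le
  have h6 := div_le_div_of_nonneg_right h4 hℓ.le
  rw [add_div, neg_div, mul_div_assoc]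
  linarith

/-- **L-252-PLANK-C1**  the root supremum under a root cap.
PROOF = `ka_tau_le` (`R227/EndA/Pack.lean`) with ONE change.   `c := n₁ R / W`.   `Real.sSup_le`.
(i) an element of `tauSet` : `⟨Ω', _, P', T', Γ, D, geo, hT, hcomp, rfl⟩`; `cap δ i := (geo δ).RootCompat 1 ε 1 (V i) (A i)`; `ka_mi_ge_cap P' T' D cap hcomp`;
pointwise: `P'.pr (cap (D x) ∘ T') = ∑_{i | cap (D x) i} P(T = i)` (`ka_pr_comp`, `hT`, `pk4_pr_fst`) `= ∑ ω i #(inc i) / W ≤ n₁ / W ∑_{cap} ω i ≤ c ε^(a+b)` (`hcap (geo (D x))`);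
`wt γ g ≤ a + b` (`γ ≥ 0`, `b ≤ a`); the rest verbatim.
(ii) `0 ≤ log c / ℓ` : `W ≤ n₁ ∑ ω i ≤ n₁ R` by `hcap ⟨0,0,0,0,0,0⟩` (every `i` is compatible by `hch`; `tang 0 = (1,0)`, `nrm 0 = (0,1)`, `ε^0 = 1`). -/
theorem pk4_tau_le {γ ε n₁ R : ℝ} (hγ : 0 ≤ γ) (hε0 : 0 < ε) (hε1 : ε < 1) (hn₁ : ∀ i, ((inc i).card : ℝ) ≤ n₁)
    (hch : ∀ i, |(V i).1| ≤ 1 ∧ |(V i).2| ≤ 1 ∧ |(A i).1| ≤ 1 ∧ |(A i).2| ≤ 1)
    (hcap : ∀ g : Geo, 0 ≤ g.b → g.b ≤ g.a → g.a ≤ 1 →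
      ∑ i with g.RootCompat 1 ε 1 (V i) (A i), ω i ≤ R * ε ^ (g.a + g.b)) :
    (pk4Sys ω inc hω hW V A tc).tau γ ε 1 ≤ Real.log (n₁ * R / pk4W ω inc) / lg ε := by
  have hℓ := ka_lg_pos hε0 hε1
  have hall : ∑ i, ω i ≤ R := by
    have h := hcap ⟨0, 0, 0, 0, 0, 0⟩ le_rfl le_rfl zero_le_one
    have hf : (Finset.univ.filter fun i => (⟨0, 0, 0, 0, 0, 0⟩ : Geo).RootCompat 1 ε 1 (V i) (A i))
        = Finset.univ := by
      refine Finset.filter_true_of_mem fun i _ => ?_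
      obtain ⟨v1, v2, a1, a2⟩ := hch i
      refine ⟨le_rfl, le_rfl, zero_le_one, ⟨?_, ?_⟩, ⟨?_, ?_⟩⟩
      · show |ip (V i - 0) (tang 0)| ≤ 1 * ε ^ (0 : ℝ)
        simpa [ip, tang] using v1
      · show |ip (V i - 0) (nrm 0)| ≤ 1 * ε ^ (0 : ℝ)
        simpa [ip, nrm] using v2
      · show |ip (A i - 0) (tang 0)| ≤ 1 * ε ^ (0 : ℝ)
        simpa [ip, tang] using a1
      · show |ip (A i - 0) (nrm 0)| ≤ 1 * ε ^ (0 : ℝ)
        simpa [ip, nrm] using a2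
    rw [hf] at h
    simpa using h
  have hWle : pk4W ω inc ≤ n₁ * ∑ i, ω i := by
    unfold pk4W
    rw [Finset.mul_sum]
    refine Finset.sum_le_sum fun i _ => ?_
    rw [mul_comm n₁]
    exact mul_le_mul_of_nonneg_left (hn₁ i) (hω i)
  have hn₁0 : 0 < n₁ := by
    by_contra hc
    have : pk4W ω inc ≤ 0 := Finset.sum_nonpos fun i _ =>
      mul_nonpos_of_nonneg_of_nonpos (hω i) ((hn₁ i).trans (not_lt.1 hc))
    linarith
  have hWR : pk4W ω inc ≤ n₁ * R := hWle.trans (mul_le_mul_of_nonneg_left hall hn₁0.le)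
  have hR0 : 0 < R := by
    by_contra hc
    have : n₁ * R ≤ 0 := mul_nonpos_of_nonneg_of_nonpos hn₁0.le (not_lt.1 hc)
    linarith
  set c : ℝ := n₁ * R / pk4W ω inc with hc
  have hc0 : 0 < c := by positivity
  have key : ∀ (Ω' : Type) [Fintype Ω'] (P' : FLaw Ω') (T' : Ω' → ι) (Γ : Type) (D : Ω' → Γ) (geo : Γ → Geo),
      (∀ i : ι, P'.pr (fun y => T' y = i) = ω i * ((inc i).card : ℝ) / pk4W ω inc) →
      (∀ y, 0 < P'.p y → (geo (D y)).RootCompat 1 ε 1 (V (T' y)) (A (T' y))) →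
      P'.ev (fun y => wt γ (geo (D y))) - P'.mi T' D / lg ε ≤ Real.log c / lg ε := by
    intro Ω' _ P' T' Γ D geo hT' hcomp
    set cap : Γ → ι → Prop := fun δ i => (geo δ).RootCompat 1 ε 1 (V i) (A i) with hcapdef
    have hL3 := ka_mi_ge_cap P' (ι := ι) T' D cap hcomp
    have hpt : ∀ y, 0 < P'.p y →
        wt γ (geo (D y)) - (- Real.log (P'.pr (fun y' => cap (D y) (T' y')))) / lg ε
          ≤ Real.log c / lg ε := by
      intro y hy
      obtain ⟨hb0, hba, ha1, -, -⟩ := hcomp y hy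
      set a := (geo (D y)).a
      set b := (geo (D y)).b
      have hπ0 := ka_pr_cap_pos P' (ι := ι) T' D cap hy (hcomp y hy)
      have hπ : P'.pr (fun y' => cap (D y) (T' y')) ≤ c * ε ^ (a + b) := by
        rw [ka_pr_comp P' (ι := ι) T' (cap (D y))]
        simp only [hT']
        rw [← Finset.sum_filter]
        have h1 := hcap (geo (D y)) hb0 hba ha1
        calc ∑ i with cap (D y) i, ω i * ((inc i).card : ℝ) / pk4W ω inc
            ≤ ∑ i with cap (D y) i, ω i * (n₁ / pk4W ω inc) := by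
              refine Finset.sum_le_sum fun i _ => ?_
              rw [mul_div_assoc]
              exact mul_le_mul_of_nonneg_left (div_le_div_of_nonneg_right (hn₁ i) hW.le) (hω i)
          _ = (∑ i with cap (D y) i, ω i) * (n₁ / pk4W ω inc) := by rw [Finset.sum_mul]
          _ ≤ (R * ε ^ (a + b)) * (n₁ / pk4W ω inc) :=
              mul_le_mul_of_nonneg_right h1 (by positivity)
          _ = c * ε ^ (a + b) := by rw [hc]; ring
      have hlog : Real.log (P'.pr (fun y' => cap (D y) (T' y'))) ≤ Real.log c - (a + b) * lg ε := by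
        refine (Real.log_le_log hπ0 hπ).trans (le_of_eq ?_)
        rw [Real.log_mul hc0.ne' (by positivity), Real.log_rpow hε0, ka_log_eq_neg_lg ε]
        ring
      have hw : wt γ (geo (D y)) ≤ a + b := by
        unfold wt
        nlinarith
      rw [neg_div, sub_neg_eq_add]
      have h3 : Real.log (P'.pr (fun y' => cap (D y) (T' y'))) / lg ε
          ≤ Real.log c / lg ε - (a + b) := by
        rw [div_le_iff₀ hℓ, sub_mul, div_mul_cancel₀ _ hℓ.ne']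
        exact hlog
      linarith
    have h4 : P'.ev (fun y => wt γ (geo (D y))) - P'.mi T' D / lg ε
        ≤ P'.ev (fun y => wt γ (geo (D y)))
          - P'.ev (fun y => - Real.log (P'.pr (fun y' => cap (D y) (T' y')))) / lg ε := by
      have := div_le_div_of_nonneg_right hL3 hℓ.le
      linarith
    refine h4.trans ?_
    have h5 : P'.ev (fun y => - Real.log (P'.pr (fun y' => cap (D y) (T' y')))) / lg ε
        = P'.ev (fun y => (- Real.log (P'.pr (fun y' => cap (D y) (T' y')))) / lg ε) := by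
      simp only [FLaw.ev, Finset.sum_div, mul_div_assoc]
    rw [h5, ← ka_ev_sub, ← ka_ev_const P' (Real.log c / lg ε)]
    exact ka_ev_mono P' hpt
  refine Real.sSup_le ?_ ?_
  · rintro x ⟨Ω', _, P', T', Γ, D, geo, hT, hcomp, rfl⟩
    exact key Ω' P' T' Γ D geo (fun i => (hT i).trans (pk4_pr_fst ω inc hω hW i)) hcomp
  · refine div_nonneg (Real.log_nonneg ?_) hℓ.le
    rw [hc, one_le_div hW]
    exact hWR

/-- **L-252-PLANK-C2**  the final arithmetic.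
PROOF.  multiply by `ℓ = lg ε > 0` (`ka_lg_pos`); `(γ + ν) ℓ = log (ε^(-(γ+ν)))` (`Real.log_rpow`, `ka_log_eq_neg_lg`); collect the logarithms (`Real.log_mul`, `Real.log_div`, `Real.log_pow`), `Real.log_le_log_iff`.   Model: `ka_arith` (`R227/EndA/Sys.lean`). -/
theorem pk4_arith {ε n₀ n₁ κ R W N γ ν : ℝ} (hε0 : 0 < ε) (hε1 : ε < 1) (hn₀ : 0 < n₀) (hn₁ : 0 < n₁) (hκ : 0 < κ)
    (hR : 0 < R) (hW : 0 < W) (hN : 0 < N)
    (h : (- Real.log (N / n₀) + 2 * Real.log (n₀ / κ)) / lg ε ≤ Real.log (n₁ * R / W) / lg ε + γ * 1 + ν) :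
    W ≤ n₁ * R * κ ^ 2 / n₀ ^ 3 * ε ^ (-(γ + ν)) * N := by
  have hℓ := ka_lg_pos hε0 hε1
  have h1 : - Real.log (N / n₀) + 2 * Real.log (n₀ / κ) ≤ Real.log (n₁ * R / W) + (γ + ν) * lg ε := by
    have := mul_le_mul_of_nonneg_right h hℓ.le
    rw [div_mul_cancel₀ _ hℓ.ne'] at this
    have e : (Real.log (n₁ * R / W) / lg ε + γ * 1 + ν) * lg ε = Real.log (n₁ * R / W) + (γ + ν) * lg ε := by
      field_simp
      ring
    rwa [e] at this
  have hp : 0 < ε ^ (-(γ + ν)) := Real.rpow_pos_of_pos hε0 _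
  have e2 : Real.log (ε ^ (-(γ + ν))) = (γ + ν) * lg ε := by
    rw [Real.log_rpow hε0, ka_log_eq_neg_lg]
    ring
  rw [← Real.log_le_log_iff hW (by positivity)]
  rw [Real.log_mul (by positivity) hN.ne', Real.log_mul (by positivity) hp.ne', Real.log_div (by positivity) (by positivity),
    Real.log_mul (by positivity) (by positivity), Real.log_mul hn₁.ne' hR.ne', Real.log_pow, Real.log_pow, e2]
  rw [Real.log_div hN.ne' hn₀.ne', Real.log_div hn₀.ne' hκ.ne', Real.log_div (by positivity) hW.ne', Real.log_mul hn₁.ne' hR.ne'] at h1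
  push_cast
  linarith

include hω hW in
/-- **the core inequality** : one instance of (4.5) at `t = L = 1`, `a = b = 0` -/
theorem pk4_core {γ ν ε n₀ n₁ κ R : ℝ} (hγ : 0 ≤ γ) (hε0 : 0 < ε) (hε1 : ε < 1)
    (hU : ∀ (S : CSys) (Γ : Type) (G : S.Ω → Γ) (geo : Γ → Geo), S.Bdd 1 →
      S.IsLabel 1 ε 1 1 G geo → S.score γ ε 1 G geo ≤ S.tau γ ε 1 + γ * 1 + ν)
    (hn₀ : 0 < n₀) (hn : ∀ i, n₀ ≤ ((inc i).card : ℝ)) (hn₁ : ∀ i, ((inc i).card : ℝ) ≤ n₁) (hκ0 : 0 < κ)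
    (hκ : ∀ i (k : ℤ), (((inc i).filter fun j => tcell ε 1 (tc j) = k).card : ℝ) ≤ κ)
    (hch : ∀ i, |(V i).1| ≤ 1 ∧ |(V i).2| ≤ 1 ∧ |(A i).1| ≤ 1 ∧ |(A i).2| ≤ 1)
    (htc : ∀ i, ∀ j ∈ inc i, |tc j| ≤ 1)
    (hvis : ∀ i, ∀ j ∈ inc i, |(A i + tc j • V i - xc j).1| ≤ ε ∧ |(A i + tc j • V i - xc j).2| ≤ ε)
    (hR : 0 < R)
    (hcap : ∀ g : Geo, 0 ≤ g.b → g.b ≤ g.a → g.a ≤ 1 →
      ∑ i with g.RootCompat 1 ε 1 (V i) (A i), ω i ≤ R * ε ^ (g.a + g.b)) :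
    pk4W ω inc ≤ n₁ * R * κ ^ 2 / n₀ ^ 3 * ε ^ (-(γ + ν)) * (Fintype.card J : ℝ) := by
  set S : CSys := pk4Sys ω inc hω hW V A tc with hS
  have hscore := pk4_score_ge ω inc hω hW V A tc xc (γ := γ) hε0 hε1 hn₀ hn hκ0 hκ
  have htau := pk4_tau_le ω inc hω hW V A tc hγ hε0 hε1 hn₁ hch hcap
  have hBdd : S.Bdd 1 := by
    intro x hx
    obtain ⟨hm, -⟩ := pk4_supp ω inc hω hW hx
    obtain ⟨v1, v2, a1, a2⟩ := hch x.1
    exact ⟨v1, v2, a1, a2, htc x.1 x.2 hm⟩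
  have hLab : S.IsLabel 1 ε 1 1 (Γ := J) Prod.snd (pk4Geo tc xc) := by
    intro x hx
    obtain ⟨hm, -⟩ := pk4_supp ω inc hω hW hx
    obtain ⟨v1, v2, -, -⟩ := hch x.1
    obtain ⟨q1, q2⟩ := hvis x.1 x.2 hm
    refine ⟨le_rfl, le_rfl, by show (0 : ℝ) + 1 ≤ 1; norm_num, ?_, ⟨?_, ?_⟩, ⟨?_, ?_⟩⟩
    · show |tc x.2 - tc x.2| ≤ _
      rw [sub_self, abs_zero]
      positivity
    · show |ip (V x.1 - 0) (tang 0)| ≤ 1 * ε ^ (0 : ℝ)
      simpa [ip, tang] using v1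
    · show |ip (V x.1 - 0) (nrm 0)| ≤ 1 * ε ^ (0 : ℝ)
      simpa [ip, nrm] using v2
    · show |ip (A x.1 + tc x.2 • V x.1 - xc x.2) (tang 0)| ≤ 1 * ε ^ ((0 : ℝ) + 1)
      simpa [ip, tang] using q1
    · show |ip (A x.1 + tc x.2 • V x.1 - xc x.2) (nrm 0)| ≤ 1 * ε ^ ((0 : ℝ) + 1)
      simpa [ip, nrm] using q2
  have h1 := hU S J Prod.snd (pk4Geo tc xc) hBdd hLab
  have hJ : (0 : ℝ) < Fintype.card J := by
    obtain ⟨i, hi⟩ : ∃ i, 0 < ω i * ((inc i).card : ℝ) := by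
      by_contra hc
      push Not at hc
      have : pk4W ω inc ≤ 0 := Finset.sum_nonpos fun i _ => hc i
      linarith
    have hc : 0 < (inc i).card := by
      rcases Nat.eq_zero_or_pos (inc i).card with h0 | h0
      · rw [h0] at hi; simp at hi
      · exact h0
    obtain ⟨j, -⟩ := Finset.card_pos.1 hc
    have : Nonempty J := ⟨j⟩
    exact_mod_cast Fintype.card_pos
  have hn₁0 : 0 < n₁ := by
    by_contra hc
    have : pk4W ω inc ≤ 0 := Finset.sum_nonpos fun i _ =>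
      mul_nonpos_of_nonneg_of_nonpos (hω i) ((hn₁ i).trans (not_lt.1 hc))
    linarith
  exact pk4_arith hε0 hε1 hn₀ hn₁0 hκ0 hR hW hJ (hscore.trans (h1.trans (by linarith)))

end Claimed.Agent.R252
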