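import Claimed.Agent.R227.EndA.Pack

/-!
# Row 252 (Kakeya in R^4), BOX 1 = Lemma 2.15 (weighted full-time plank estimate), file 1: planks      (architect helper69; prefix `pk4_`)      CONTRACT

A TRACE is an affine motion `t ↦ A + t V` in the plane `ℝ × ℝ`, `0 ≤ t ≤ 1` (language of `R255/Base/Classical.lean`: `ip`, `tang th`, `nrm th`).
* `pk4In p q th c v A V` : the WHOLE trace lies in the full-time plank with centre line `c + t v`, frame `(tang th, nrm th)`, half-widths `p` (along `tang th`), `q` (along `nrm th`).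
* `pk4Cap D Ac ω V A`    : the plank cap (2.weighted-plank-cap) at the mesh `ρ = 1/D` : every plank with half-widths `b ρ ≥ a ρ`, `1 ≤ a ≤ b ≤ D`, carries weight `≤ Ac a b`.
* `pk4_cap_big`          : the cap for planks of ARBITRARY half-widths `P ρ, Q ρ`, `P, Q ≥ 1` ("fixed dilations of the plank tests are permitted"), by subdivision.
No law, no entropy in this file.
-/

set_option autoImplicit false

namespace Claimed.Agent.R252

open Claimed.Agent.R255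
open scoped BigOperators
open Classical

/-- the whole trace `A + t V`, `0 ≤ t ≤ 1`, lies in the plank `(p, q, th, c, v)` -/
def pk4In (p q th : ℝ) (c v A V : ℝ × ℝ) : Prop :=
  ∀ t : ℝ, 0 ≤ t → t ≤ 1 →
    |ip (A + t • V - (c + t • v)) (tang th)| ≤ p ∧ |ip (A + t • V - (c + t • v)) (nrm th)| ≤ q

/-- the plank cap with constant `Ac` at the mesh `1 / D` -/
def pk4Cap {ι : Type} [Fintype ι] (D Ac : ℝ) (ω : ι → ℝ) (V A : ι → ℝ × ℝ) : Prop :=
  ∀ (a b th : ℝ) (c v : ℝ × ℝ), 1 ≤ a → a ≤ b → b ≤ D →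
    ∑ i with pk4In (b / D) (a / D) th c v (A i) (V i), ω i ≤ Ac * a * b

theorem pk4_geo_eqns_cite : True := by
  have := @pk4In.eq_1
  have := @pk4Cap.eq_1
  trivial

/-- **L-252-PLANK-G1**  containment is tested at the two end points.
PROOF.  `→` : `t = 0`, `t = 1` (`simp`).   `←` : `ip (A + t V - (c + t v)) w = (1 - t) ip (A - c) w + t ip (A + V - (c + v)) w` (unfold `ip`, `ring`), `abs_add`, `abs_mul`, `(1 - t) p + t p = p`. -/
theorem pk4_in_iff (p q th : ℝ) (c v A V : ℝ × ℝ) :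
    pk4In p q th c v A V ↔
      (|ip (A - c) (tang th)| ≤ p ∧ |ip (A - c) (nrm th)| ≤ q) ∧
        (|ip (A + V - (c + v)) (tang th)| ≤ p ∧ |ip (A + V - (c + v)) (nrm th)| ≤ q) := by
  constructor
  · intro h
    have h0 := h 0 le_rfl zero_le_one
    have h1 := h 1 zero_le_one le_rfl
    simp only [zero_smul, add_zero, one_smul] at h0 h1
    exact ⟨h0, h1⟩
  · rintro ⟨⟨h1, h2⟩, h3, h4⟩ t ht0 ht1
    have key : ∀ (w : ℝ × ℝ) (r : ℝ), |ip (A - c) w| ≤ r → |ip (A + V - (c + v)) w| ≤ r →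
        |ip (A + t • V - (c + t • v)) w| ≤ r := by
      intro w r ha hb
      have e : ip (A + t • V - (c + t • v)) w
          = (1 - t) * ip (A - c) w + t * ip (A + V - (c + v)) w := by
        simp only [ip, Prod.fst_sub, Prod.snd_sub, Prod.fst_add, Prod.snd_add, Prod.smul_fst,
          Prod.smul_snd, smul_eq_mul]
        ring
      rw [e]
      have h1t : 0 ≤ 1 - t := by linarith
      calc |(1 - t) * ip (A - c) w + t * ip (A + V - (c + v)) w|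
          ≤ |(1 - t) * ip (A - c) w| + |t * ip (A + V - (c + v)) w| := abs_add_le _ _
        _ = (1 - t) * |ip (A - c) w| + t * |ip (A + V - (c + v)) w| := by
            rw [abs_mul, abs_mul, abs_of_nonneg h1t, abs_of_nonneg ht0]
        _ ≤ (1 - t) * r + t * r := by gcongr
        _ = r := by ring
    exact ⟨key _ _ h1 h3, key _ _ h2 h4⟩

theorem pk4_in_mono {p q p' q' th : ℝ} {c v A V : ℝ × ℝ} (hp : p ≤ p') (hq : q ≤ q')
    (h : pk4In p q th c v A V) : pk4In p' q' th c v A V :=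
  fun t h0 h1 => ⟨(h t h0 h1).1.trans hp, (h t h0 h1).2.trans hq⟩

/-- **L-252-PLANK-G2**  rotation of the frame by a right angle exchanges the two sides.
PROOF.  `tang (th + π/2) = nrm th`, `nrm (th + π/2) = - tang th` (`Real.cos_add_pi_div_two`, `Real.sin_add_pi_div_two`), `ip z (- w) = - ip z w`, `abs_neg`. -/
theorem pk4_in_rot {p q th : ℝ} {c v A V : ℝ × ℝ} (h : pk4In p q th c v A V) :
    pk4In q p (th + Real.pi / 2) c v A V := by
  intro t h0 h1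
  obtain ⟨a, b⟩ := h t h0 h1
  have e1 : tang (th + Real.pi / 2) = nrm th := by
    unfold tang nrm
    rw [Real.cos_add_pi_div_two, Real.sin_add_pi_div_two]
  have e2 : ∀ z : ℝ × ℝ, ip z (nrm (th + Real.pi / 2)) = - ip z (tang th) := by
    intro z
    unfold ip tang nrm
    rw [Real.cos_add_pi_div_two, Real.sin_add_pi_div_two]
    ring
  rw [e1, e2, abs_neg]
  exact ⟨b, a⟩

/-- the constant of a cap is nonnegative -/
theorem pk4_cap_nonneg {ι : Type} [Fintype ι] {D Ac : ℝ} {ω : ι → ℝ} {V A : ι → ℝ × ℝ} (hD : 1 ≤ D)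
    (hω : ∀ i, 0 ≤ ω i) (h : pk4Cap D Ac ω V A) : 0 ≤ Ac := by
  have h1 := h 1 1 0 0 0 le_rfl le_rfl hD
  have h2 : 0 ≤ ∑ i with pk4In (1 / D) (1 / D) 0 0 0 (A i) (V i), ω i := Finset.sum_nonneg fun i _ => hω i
  linarith

/-- the cap without the order of the two sides -/
theorem pk4_cap_unord {ι : Type} [Fintype ι] {D Ac : ℝ} {ω : ι → ℝ} {V A : ι → ℝ × ℝ}
    (hω : ∀ i, 0 ≤ ω i) (h : pk4Cap D Ac ω V A) (a b th : ℝ) (c v : ℝ × ℝ) (ha : 1 ≤ a) (haD : a ≤ D) (hb : 1 ≤ b)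
    (hbD : b ≤ D) : ∑ i with pk4In (b / D) (a / D) th c v (A i) (V i), ω i ≤ Ac * a * b := by
  rcases le_total a b with hab | hab
  · exact h a b th c v ha hab hbD
  · have h1 := h b a (th + Real.pi / 2) c v hb hab haD
    refine le_trans ?_ (h1.trans (le_of_eq (by ring)))
    refine Finset.sum_le_sum_of_subset_of_nonneg ?_ fun i _ _ => hω i
    intro i hi
    rw [Finset.mem_filter] at hi ⊢
    exact ⟨hi.1, pk4_in_rot hi.2⟩

/-- **L-252-PLANK-G3**  subdivision of an interval.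
PROOF.  `p = 0` : `x = 0`, `k = 0`.   `p > 0` : `k = min (n - 1) ⌊(x + p) n / (2 p)⌋₊`. -/
theorem pk4_sub_interval (p x : ℝ) (hx : |x| ≤ p) (n : ℕ) (hn : 1 ≤ n) :
    ∃ k : Fin n, |x - (-p + (2 * (k : ℝ) + 1) * p / n)| ≤ p / n := by
  have hn0 : (0 : ℝ) < n := by exact_mod_cast hn
  have hp0 : 0 ≤ p := (abs_nonneg x).trans hx
  obtain ⟨hx1, hx2⟩ := abs_le.1 hx
  rcases hp0.eq_or_lt with hp | hp
  · refine ⟨⟨0, hn⟩, ?_⟩
    have : x = 0 := by rw [← hp] at hx1 hx2; linarith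
    rw [this, ← hp]
    simp
  · -- y = (x + p) n / (2 p) ∈ [0, n]
    obtain ⟨y, hy⟩ : ∃ y : ℝ, y = (x + p) * n / (2 * p) := ⟨_, rfl⟩
    have hy0 : 0 ≤ y := by rw [hy]; apply div_nonneg (mul_nonneg (by linarith) hn0.le) (by linarith)
    have hyn : y ≤ n := by
      rw [hy, div_le_iff₀ (by linarith)]
      nlinarith
    have hxy : x = -p + 2 * y * p / n := by
      rw [hy]; field_simp; ring
    have hk : min (n - 1) ⌊y⌋₊ < n := lt_of_le_of_lt (min_le_left _ _) (by omega)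
    refine ⟨⟨min (n - 1) ⌊y⌋₊, hk⟩, ?_⟩
    have hfl := Nat.floor_le hy0
    have hfl2 := Nat.lt_floor_add_one y
    -- |y - (k + 1/2)| ≤ 1/2
    have key : |y - ((min (n - 1) ⌊y⌋₊ : ℕ) : ℝ) - 1 / 2| ≤ 1 / 2 := by
      rcases le_total (n - 1) ⌊y⌋₊ with h | h
      · rw [min_eq_left h]
        have h1 : ((n - 1 : ℕ) : ℝ) = (n : ℝ) - 1 := by
          rw [Nat.cast_sub hn]; simp
        have h2 : ((n - 1 : ℕ) : ℝ) ≤ (⌊y⌋₊ : ℝ) := by exact_mod_cast h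
        rw [abs_le]
        constructor <;> linarith
      · rw [min_eq_right h, abs_le]
        constructor <;> linarith
    have e : x - (-p + (2 * (((⟨min (n - 1) ⌊y⌋₊, hk⟩ : Fin n) : ℕ) : ℝ) + 1) * p / n)
        = (y - ((min (n - 1) ⌊y⌋₊ : ℕ) : ℝ) - 1 / 2) * (2 * p / n) := by
      rw [hxy]; field_simp; ring
    rw [e, abs_mul, abs_of_pos (by positivity : 0 < 2 * p / n)]
    calc |y - ((min (n - 1) ⌊y⌋₊ : ℕ) : ℝ) - 1 / 2| * (2 * p / n) ≤ 1 / 2 * (2 * p / n) :=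
          mul_le_mul_of_nonneg_right key (by positivity)
      _ = p / n := by ring

theorem pk4_ip_sub_tang (z : ℝ × ℝ) (a b th : ℝ) :
    ip (z - (a • tang th + b • nrm th)) (tang th) = ip z (tang th) - a := by
  have h := Real.cos_sq_add_sin_sq th
  unfold ip tang nrm
  simp only [Prod.fst_sub, Prod.snd_sub, Prod.fst_add, Prod.snd_add, Prod.smul_fst, Prod.smul_snd, smul_eq_mul]
  linear_combination (-a) * h

theorem pk4_ip_sub_nrm (z : ℝ × ℝ) (a b th : ℝ) :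
    ip (z - (a • tang th + b • nrm th)) (nrm th) = ip z (nrm th) - b := by
  have h := Real.cos_sq_add_sin_sq th
  unfold ip tang nrm
  simp only [Prod.fst_sub, Prod.snd_sub, Prod.fst_add, Prod.snd_add, Prod.smul_fst, Prod.smul_snd, smul_eq_mul]
  linear_combination (-b) * h

/-- **L-252-PLANK-G4**  a plank is covered by `n'² n²` planks with the half-widths `p / n'`, `q / n`.
PROOF.  `pk4_in_iff`; coordinates `x₁ = ip (A - c) (tang th)`, `x₂ = ip (A + V - (c + v)) (tang th)`, `y₁, y₂` the same with `nrm th`; `pk4_sub_interval` four times gives `k₁, k₂ : Fin n'`, `l₁, l₂ : Fin n`,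
`ξ k = -p + (2k+1) p / n'`, `ζ l = -q + (2l+1) q / n`;  `c' = c + ξ k₁ • tang th + ζ l₁ • nrm th`,  `v' = v + (ξ k₂ - ξ k₁) • tang th + (ζ l₂ - ζ l₁) • nrm th`;
`ip (tang th) (tang th) = 1 = ip (nrm th) (nrm th)`, `ip (tang th) (nrm th) = 0` (`Real.cos_sq_add_sin_sq`).   The family of centres is indexed by `Fin n' × Fin n' × Fin n × Fin n`. -/
theorem pk4_cover (p q th : ℝ) (c v : ℝ × ℝ) (n' n : ℕ) (hn' : 1 ≤ n') (hn : 1 ≤ n) :
    ∃ cv : Fin n' × Fin n' × Fin n × Fin n → (ℝ × ℝ) × (ℝ × ℝ), ∀ A V : ℝ × ℝ, pk4In p q th c v A V →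
      ∃ κ, pk4In (p / n') (q / n) th (cv κ).1 (cv κ).2 A V := by
  refine ⟨fun κ =>
    (c + ((-p + (2 * ((κ.1 : ℕ) : ℝ) + 1) * p / n') • tang th + (-q + (2 * ((κ.2.2.1 : ℕ) : ℝ) + 1) * q / n) • nrm th),
     v + (((-p + (2 * ((κ.2.1 : ℕ) : ℝ) + 1) * p / n') - (-p + (2 * ((κ.1 : ℕ) : ℝ) + 1) * p / n')) • tang th
        + ((-q + (2 * ((κ.2.2.2 : ℕ) : ℝ) + 1) * q / n) - (-q + (2 * ((κ.2.2.1 : ℕ) : ℝ) + 1) * q / n)) • nrm th)), ?_⟩
  intro A V h
  obtain ⟨⟨hx1, hy1⟩, hx2, hy2⟩ := (pk4_in_iff p q th c v A V).1 h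
  obtain ⟨k1, hk1⟩ := pk4_sub_interval p _ hx1 n' hn'
  obtain ⟨k2, hk2⟩ := pk4_sub_interval p _ hx2 n' hn'
  obtain ⟨l1, hl1⟩ := pk4_sub_interval q _ hy1 n hn
  obtain ⟨l2, hl2⟩ := pk4_sub_interval q _ hy2 n hn
  refine ⟨(k1, k2, l1, l2), ?_⟩
  rw [pk4_in_iff]
  obtain ⟨ξ1, hξ1⟩ : ∃ ξ : ℝ, ξ = -p + (2 * ((k1 : ℕ) : ℝ) + 1) * p / n' := ⟨_, rfl⟩
  obtain ⟨ξ2, hξ2⟩ : ∃ ξ : ℝ, ξ = -p + (2 * ((k2 : ℕ) : ℝ) + 1) * p / n' := ⟨_, rfl⟩
  obtain ⟨ζ1, hζ1⟩ : ∃ ξ : ℝ, ξ = -q + (2 * ((l1 : ℕ) : ℝ) + 1) * q / n := ⟨_, rfl⟩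
  obtain ⟨ζ2, hζ2⟩ : ∃ ξ : ℝ, ξ = -q + (2 * ((l2 : ℕ) : ℝ) + 1) * q / n := ⟨_, rfl⟩
  simp only [← hξ1, ← hξ2, ← hζ1, ← hζ2] at hk1 hk2 hl1 hl2 ⊢
  have e1 : A - (c + (ξ1 • tang th + ζ1 • nrm th)) = (A - c) - (ξ1 • tang th + ζ1 • nrm th) := by abel
  have e2 : A + V - (c + (ξ1 • tang th + ζ1 • nrm th) + (v + ((ξ2 - ξ1) • tang th + (ζ2 - ζ1) • nrm th)))
      = (A + V - (c + v)) - (ξ2 • tang th + ζ2 • nrm th) := by
    rw [sub_smul, sub_smul]; abel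
  rw [e1, e2, pk4_ip_sub_tang, pk4_ip_sub_nrm, pk4_ip_sub_tang, pk4_ip_sub_nrm]
  exact ⟨⟨hk1, hl1⟩, hk2, hl2⟩

/-- **L-252-PLANK-G5**  the cap for planks of arbitrary size.
PROOF.  `n' = ⌈P / D⌉₊ ≥ 1`, `n = ⌈Q / D⌉₊ ≥ 1`;  `pk4_cover (P / D) (Q / D) th c v n' n`;  union bound `∑_{i ∈ big} ω i ≤ ∑_κ ∑_{i ∈ plank κ} ω i` (`Finset.sum_le_sum_of_subset_of_nonneg` into a `biUnion` + `Finset.sum_biUnion_le`-type bound, `ω ≥ 0`);
each small plank lies in the plank with `b'' = max 1 (P / n')`, `a'' = max 1 (Q / n)` (`pk4_in_mono`; `P / D / n' = (P / n') / D`), `1 ≤ a'', b'' ≤ D` (`P / n' ≤ D` from `P / D ≤ n'`), so it carries `≤ Ac a'' b''` (`pk4_cap_unord`).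
`n' b'' ≤ 2 P` : if `1 ≤ P / n'` equality with `P`; otherwise `n' > P ≥ 1`, so `n' < P / D + 1 ≤ 2 P`.   Number of small planks `n'² n²`.   `Ac ≥ 0` (`pk4_cap_nonneg`). -/
theorem pk4_cap_big {ι : Type} [Fintype ι] {D Ac : ℝ} {ω : ι → ℝ} {V A : ι → ℝ × ℝ} (hD : 1 ≤ D)
    (hω : ∀ i, 0 ≤ ω i) (h : pk4Cap D Ac ω V A) (P Q th : ℝ) (c v : ℝ × ℝ) (hP : 1 ≤ P) (hQ : 1 ≤ Q) :
    ∑ i with pk4In (P / D) (Q / D) th c v (A i) (V i), ω i
      ≤ 4 * Ac * P * Q * (⌈P / D⌉₊ : ℝ) * (⌈Q / D⌉₊ : ℝ) := by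
  have hD0 : 0 < D := by linarith
  have hAc := pk4_cap_nonneg hD hω h
  obtain ⟨n', hn'⟩ : ∃ n' : ℕ, n' = ⌈P / D⌉₊ := ⟨_, rfl⟩
  obtain ⟨n, hn⟩ : ∃ n : ℕ, n = ⌈Q / D⌉₊ := ⟨_, rfl⟩
  rw [← hn', ← hn]
  have hn'1 : 1 ≤ n' := by rw [hn']; exact Nat.one_le_iff_ne_zero.2 (Nat.ceil_pos.2 (by positivity)).ne'
  have hn1 : 1 ≤ n := by rw [hn]; exact Nat.one_le_iff_ne_zero.2 (Nat.ceil_pos.2 (by positivity)).ne'
  have hn'0 : (0 : ℝ) < n' := by exact_mod_cast hn'1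
  have hn0 : (0 : ℝ) < n := by exact_mod_cast hn1
  have hPle : P / D ≤ n' := by rw [hn']; exact Nat.le_ceil _
  have hQle : Q / D ≤ n := by rw [hn]; exact Nat.le_ceil _
  have hPlt : (n' : ℝ) < P / D + 1 := by rw [hn']; exact Nat.ceil_lt_add_one (by positivity)
  have hQlt : (n : ℝ) < Q / D + 1 := by rw [hn]; exact Nat.ceil_lt_add_one (by positivity)
  have hPD : P / D ≤ P := div_le_self (by linarith) hD
  have hQD : Q / D ≤ Q := div_le_self (by linarith) hD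
  obtain ⟨cv, hcv⟩ := pk4_cover (P / D) (Q / D) th c v n' n hn'1 hn1
  obtain ⟨b2, hb2⟩ : ∃ b2 : ℝ, b2 = max 1 (P / n') := ⟨_, rfl⟩
  obtain ⟨a2, ha2⟩ : ∃ a2 : ℝ, a2 = max 1 (Q / n) := ⟨_, rfl⟩
  have hb1 : 1 ≤ b2 := by rw [hb2]; exact le_max_left _ _
  have ha1 : 1 ≤ a2 := by rw [ha2]; exact le_max_left _ _
  have hbD : b2 ≤ D := by
    rw [hb2]
    refine max_le hD ?_
    rw [div_le_iff₀ hn'0]
    rw [div_le_iff₀ hD0] at hPle
    linarith
  have haD : a2 ≤ D := by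
    rw [ha2]
    refine max_le hD ?_
    rw [div_le_iff₀ hn0]
    rw [div_le_iff₀ hD0] at hQle
    linarith
  have hnb : (n' : ℝ) * b2 ≤ 2 * P := by
    rw [hb2]
    rcases le_total 1 (P / n') with h1 | h1
    · rw [max_eq_right h1, mul_div_cancel₀ _ hn'0.ne']; linarith
    · rw [max_eq_left h1]; linarith
  have hna : (n : ℝ) * a2 ≤ 2 * Q := by
    rw [ha2]
    rcases le_total 1 (Q / n) with h1 | h1
    · rw [max_eq_right h1, mul_div_cancel₀ _ hn0.ne']; linarith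
    · rw [max_eq_left h1]; linarith
  -- each small plank
  have hsmall : ∀ κ, ∑ i with pk4In (P / D / n') (Q / D / n) th (cv κ).1 (cv κ).2 (A i) (V i), ω i ≤ Ac * a2 * b2 := by
    intro κ
    refine le_trans ?_ (pk4_cap_unord hω h a2 b2 th (cv κ).1 (cv κ).2 ha1 haD hb1 hbD)
    refine Finset.sum_le_sum_of_subset_of_nonneg ?_ fun i _ _ => hω i
    intro i hi
    rw [Finset.mem_filter] at hi ⊢
    refine ⟨hi.1, pk4_in_mono ?_ ?_ hi.2⟩
    · rw [div_div, mul_comm D, ← div_div]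
      exact div_le_div_of_nonneg_right (by rw [hb2]; exact le_max_right _ _) hD0.le
    · rw [div_div, mul_comm D, ← div_div]
      exact div_le_div_of_nonneg_right (by rw [ha2]; exact le_max_right _ _) hD0.le
  -- union bound
  have hunion : ∑ i with pk4In (P / D) (Q / D) th c v (A i) (V i), ω i
      ≤ ∑ κ, ∑ i with pk4In (P / D / n') (Q / D / n) th (cv κ).1 (cv κ).2 (A i) (V i), ω i := by
    have h1 : ∀ i ∈ Finset.univ.filter (fun i => pk4In (P / D) (Q / D) th c v (A i) (V i)),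
        ω i ≤ ∑ κ, if pk4In (P / D / n') (Q / D / n) th (cv κ).1 (cv κ).2 (A i) (V i) then ω i else 0 := by
      intro i hi
      rw [Finset.mem_filter] at hi
      obtain ⟨κ, hκ⟩ := hcv _ _ hi.2
      have := Finset.single_le_sum (f := fun κ => if pk4In (P / D / n') (Q / D / n) th (cv κ).1 (cv κ).2 (A i) (V i) then ω i else 0)
        (fun κ _ => by split_ifs <;> first | exact hω i | exact le_rfl) (Finset.mem_univ κ)
      simpa [if_pos hκ] using this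
    refine (Finset.sum_le_sum h1).trans ?_
    rw [Finset.sum_comm]
    refine Finset.sum_le_sum fun κ _ => ?_
    rw [Finset.sum_filter, Finset.sum_filter]
    refine Finset.sum_le_sum fun i _ => ?_
    split_ifs <;> first | exact hω i | exact le_rfl
  refine hunion.trans ((Finset.sum_le_sum fun κ _ => hsmall κ).trans ?_)
  rw [Finset.sum_const, Finset.card_univ, nsmul_eq_mul]
  simp only [Fintype.card_prod, Fintype.card_fin]
  push_cast
  have hab : 0 ≤ (n' : ℝ) * n := by positivity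
  have h2 : ((n' : ℝ) * b2) * ((n : ℝ) * a2) ≤ (2 * P) * (2 * Q) :=
    mul_le_mul hnb hna (by positivity) (by linarith)
  calc (n' : ℝ) * (n' * (n * n)) * (Ac * a2 * b2) = (Ac * ((n' : ℝ) * n)) * (((n' : ℝ) * b2) * ((n : ℝ) * a2)) := by ring
    _ ≤ (Ac * ((n' : ℝ) * n)) * ((2 * P) * (2 * Q)) := mul_le_mul_of_nonneg_left h2 (by positivity)
    _ = 4 * Ac * P * Q * n' * n := by ring

end Claimed.Agent.R252
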