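import Claimed.Agent.R227.EndA.Pack

/-!
# Row 252 (Kakeya in R^4), BOX 1 = Lemma 2.15, file 2: the law of a weighted family of marked traces      (architect helper69; prefix `pk4_`)      CONTRACT

`ι` = traces with weights `ω i ≥ 0`, `J` = cells, `inc i : Finset J` = the cells marked on the trace `i`.   `pk4W = ∑ ω i #(inc i)`.
`pk4Law` : the pair `(i, j)`, `j ∈ inc i`, has probability `ω i / W`.
* `pk4_pr_fst`  : `P(T = i) = ω i #(inc i) / W`
* `pk4_mi_le`   : `n₀ ≤ #(inc i)`                                        `⟹ I(i ; j) ≤ log (#J / n₀)`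
* `pk4_entC_ge` : `n₀ ≤ #(inc i)`, `#{j ∈ inc i | tm j = k} ≤ κ`          `⟹ H(tm j | i) ≥ log (n₀ / κ)`
Tools: `ka_mi_le`, `ka_entC_ge` (`R227/EndA/Ent.lean`); model proofs: `KaW.pr_fst`, `KaW.fib_pair`, `KaW.fib_tm`, `KaW.mi_le`, `KaW.entC_ge` (`R227/EndA/Law.lean`).
-/

set_option autoImplicit false

namespace Claimed.Agent.R252

open Claimed.Agent.R255 Claimed.Agent.R227
open scoped BigOperators
open Classical

variable {ι J : Type} [Fintype ι] [Fintype J]

/-- the weighted number of marks -/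
noncomputable def pk4W (ω : ι → ℝ) (inc : ι → Finset J) : ℝ := ∑ i, ω i * ((inc i).card : ℝ)

omit [Fintype ι] in
theorem pk4_row (ω : ι → ℝ) (inc : ι → Finset J) (W : ℝ) (i : ι) :
    ∑ j, (if j ∈ inc i then ω i / W else 0) = ω i * ((inc i).card : ℝ) / W := by
  rw [← Finset.sum_filter, Finset.sum_const, nsmul_eq_mul]
  have : (Finset.univ.filter fun j => j ∈ inc i) = inc i := by
    ext j; simp
  rw [this]
  ring

/-- `(i, j)`, `j ∈ inc i`, with probability `ω i / W` -/
noncomputable def pk4Law (ω : ι → ℝ) (inc : ι → Finset J) (hω : ∀ i, 0 ≤ ω i) (hW : 0 < pk4W ω inc) :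
    FLaw (ι × J) where
  p := fun x => if x.2 ∈ inc x.1 then ω x.1 / pk4W ω inc else 0
  nonneg := fun x => by
    split_ifs
    · exact div_nonneg (hω _) hW.le
    · exact le_rfl
  sum_one := by
    rw [Fintype.sum_prod_type]
    simp only [pk4_row]
    rw [← Finset.sum_div]
    exact div_self hW.ne'

theorem pk4_law_eqns_cite : True := by
  have := @pk4W.eq_1
  have := @pk4Law.eq_1
  trivial

variable (ω : ι → ℝ) (inc : ι → Finset J) (hω : ∀ i, 0 ≤ ω i) (hW : 0 < pk4W ω inc)

theorem pk4_law_p (x : ι × J) :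
    (pk4Law ω inc hω hW).p x = if x.2 ∈ inc x.1 then ω x.1 / pk4W ω inc else 0 := rfl

/-- on the support -/
theorem pk4_supp {x : ι × J} (hx : 0 < (pk4Law ω inc hω hW).p x) : x.2 ∈ inc x.1 ∧ 0 < ω x.1 := by
  rw [pk4_law_p] at hx
  split_ifs at hx with h
  · refine ⟨h, ?_⟩
    by_contra hc
    have h0 : ω x.1 = 0 := le_antisymm (not_lt.1 hc) (hω _)
    rw [h0, zero_div] at hx
    exact lt_irrefl _ hx
  · exact absurd hx (lt_irrefl _)

theorem pk4_pr_fst (i : ι) :
    (pk4Law ω inc hω hW).pr (fun x => x.1 = i) = ω i * ((inc i).card : ℝ) / pk4W ω inc := by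
  unfold FLaw.pr
  rw [Fintype.sum_prod_type]
  simp only [pk4_law_p]
  rw [Finset.sum_eq_single i]
  · simp only [if_true]
    exact pk4_row ω inc _ i
  · intro i' _ hi
    simp [hi]
  · intro h
    exact absurd (Finset.mem_univ i) h

theorem pk4_fib_fst (x : ι × J) :
    (pk4Law ω inc hω hW).fib Prod.fst x = ω x.1 * ((inc x.1).card : ℝ) / pk4W ω inc :=
  pk4_pr_fst ω inc hω hW x.1

theorem pk4_fib_pair (x : ι × J) :
    (pk4Law ω inc hω hW).fib (FLaw.pair Prod.fst Prod.snd) x = (pk4Law ω inc hω hW).p x := by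
  unfold FLaw.fib FLaw.pr
  rw [Finset.sum_eq_single x]
  · simp
  · intro y _ hy
    have : ¬ (FLaw.pair Prod.fst Prod.snd y = FLaw.pair Prod.fst Prod.snd x) := by
      intro h
      exact hy h
    rw [if_neg this]
  · intro h
    exact absurd (Finset.mem_univ x) h

theorem pk4_fib_tm {α : Type} (tm : J → α) (x : ι × J) :
    (pk4Law ω inc hω hW).fib (FLaw.pair (fun y : ι × J => tm y.2) Prod.fst) x
      = ω x.1 * (((inc x.1).filter fun j => tm j = tm x.2).card : ℝ) / pk4W ω inc := by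
  unfold FLaw.fib FLaw.pr
  rw [Fintype.sum_prod_type, Finset.sum_eq_single x.1]
  · calc _ = ∑ j, (if j ∈ (inc x.1).filter (fun j => tm j = tm x.2) then ω x.1 / pk4W ω inc else 0) := by
          refine Finset.sum_congr rfl fun j _ => ?_
          rw [pk4_law_p]
          by_cases h : tm j = tm x.2 <;> by_cases h' : j ∈ inc x.1 <;> simp [FLaw.pair, h, h']
      _ = _ := by
          rw [← Finset.sum_filter, Finset.sum_const, nsmul_eq_mul]
          have : (Finset.univ.filter fun j => j ∈ (inc x.1).filter (fun j => tm j = tm x.2))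
              = (inc x.1).filter (fun j => tm j = tm x.2) := by
            ext j; simp
          rw [this]
          ring
  · intro i' _ hi
    refine Finset.sum_eq_zero fun j _ => ?_
    simp [FLaw.pair, hi]
  · intro h
    exact absurd (Finset.mem_univ x.1) h

/-- `I(i ; j) ≤ log (#J / n₀)` -/
theorem pk4_mi_le {n₀ : ℝ} (hn₀ : 0 < n₀) (hn : ∀ i, n₀ ≤ ((inc i).card : ℝ)) :
    (pk4Law ω inc hω hW).mi Prod.fst Prod.snd ≤ Real.log ((Fintype.card J : ℝ) / n₀) := by
  have hJ : (0 : ℝ) < Fintype.card J := by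
    obtain ⟨x, hx⟩ : ∃ x, 0 < (pk4Law ω inc hω hW).p x := by
      by_contra hc
      push Not at hc
      have h0 : ∑ x, (pk4Law ω inc hω hW).p x = 0 :=
        Finset.sum_eq_zero fun x _ => le_antisymm (hc x) ((pk4Law ω inc hω hW).nonneg x)
      rw [(pk4Law ω inc hω hW).sum_one] at h0
      exact one_ne_zero h0
    have : Nonempty J := ⟨x.2⟩
    exact_mod_cast Fintype.card_pos
  have key := ka_mi_le (pk4Law ω inc hω hW) Prod.fst Prod.snd (fun _ : J => (1 : ℝ)) (fun _ => zero_le_one)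
    (κ := 1 / n₀) (M := Fintype.card J) (by positivity) hJ (by simp) (by
      intro x hx
      obtain ⟨hm, hp⟩ := pk4_supp ω inc hω hW hx
      rw [pk4_fib_pair, pk4_fib_fst, pk4_law_p, if_pos hm]
      have h1 : 1 / n₀ * 1 * (ω x.1 * ((inc x.1).card : ℝ) / pk4W ω inc)
          = ω x.1 / pk4W ω inc * (((inc x.1).card : ℝ) / n₀) := by
        field_simp
      rw [h1]
      have h2 : 1 ≤ ((inc x.1).card : ℝ) / n₀ := by
        rw [one_le_div hn₀]
        exact hn x.1
      have h3 : 0 ≤ ω x.1 / pk4W ω inc := div_nonneg hp.le hW.le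
      nlinarith)
  have e : 1 / n₀ * (Fintype.card J : ℝ) = (Fintype.card J : ℝ) / n₀ := by ring
  rwa [e] at key

/-- `H(tm j | i) ≥ log (n₀ / κ)` -/
theorem pk4_entC_ge {α : Type} (tm : J → α) {n₀ κ : ℝ} (hn₀ : 0 < n₀) (hn : ∀ i, n₀ ≤ ((inc i).card : ℝ))
    (hκ0 : 0 < κ) (hκ : ∀ i k, (((inc i).filter fun j => tm j = k).card : ℝ) ≤ κ) :
    Real.log (n₀ / κ) ≤ (pk4Law ω inc hω hW).entC (fun y : ι × J => tm y.2) Prod.fst := by
  have key := ka_entC_ge (pk4Law ω inc hω hW) (fun y : ι × J => tm y.2) Prod.fst (θ := κ / n₀)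
    (by positivity) (by
    intro x hx
    obtain ⟨hm, hp⟩ := pk4_supp ω inc hω hW hx
    rw [pk4_fib_tm, pk4_fib_fst]
    have h1 : κ / n₀ * (ω x.1 * ((inc x.1).card : ℝ) / pk4W ω inc)
        = ω x.1 / pk4W ω inc * (κ * (((inc x.1).card : ℝ) / n₀)) := by
      field_simp
    have h0 : ω x.1 * (((inc x.1).filter fun j => tm j = tm x.2).card : ℝ) / pk4W ω inc
        = ω x.1 / pk4W ω inc * (((inc x.1).filter fun j => tm j = tm x.2).card : ℝ) := by
      ring
    rw [h1, h0]
    have h2 : 1 ≤ ((inc x.1).card : ℝ) / n₀ := by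
      rw [one_le_div hn₀]
      exact hn x.1
    have h3 : 0 ≤ ω x.1 / pk4W ω inc := div_nonneg hp.le hW.le
    refine mul_le_mul_of_nonneg_left ?_ h3
    calc _ ≤ κ := hκ _ _
      _ = κ * 1 := (mul_one _).symm
      _ ≤ _ := mul_le_mul_of_nonneg_left h2 hκ0.le)
  have e : - Real.log (κ / n₀) = Real.log (n₀ / κ) := by
    rw [← Real.log_inv, inv_div]
  rwa [e] at key

end Claimed.Agent.R252
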