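import Claimed.Agent.R252.Plank.Geo
import Claimed.Agent.R252.Plank.Core
import Claimed.Agent.R255.Cl.Top

/-!
# Row 252 (Kakeya in R^4), BOX 1 = Lemma 2.15 (weighted full-time plank estimate), file 4: THE EXIT      (architect helper69; prefix `pk4_`)      CONTRACT

DATA (one scale `D ≥ 1`, mesh `ρ = 1/D`, one slack `K ≥ 1`):  finitely many indexed traces `t ↦ A i + t V i` in `ℝ × ℝ` with weights `ω i ≥ 0` (repetitions allowed);  a finite type `J` of CELLS (`= E_vis`),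
the cell `j` has a time `tc j ∈ [0,1]` and a spatial centre `xc j`;  `inc i : Finset J` = the marks of the trace `i`.   `pk4Marks D K V A tc xc inc` :
* `chart` : all coordinates of `A i`, `V i` are `≤ K`;
* `vis`   : at the time `tc j` the trace `i` is within `K ρ` of `xc j` (both coordinates)      [bin centres, fixed or subpower enlargements of cells];
* `mult`  : every time window `[s, s + ρ)` contains `≤ K` marks of the trace `i`               [one mark per time bin: `K = 1`];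
* `long`  : `#(inc i) ≥ D / K`                                                                  [long marks; `K = D^η` gives the paper's `D^(1-η)`].
`pk4Cap D Ac ω V A` (file `Geo.lean`) : every full-time plank with half-widths `a ρ ≤ b ρ`, `1 ≤ a ≤ b ≤ D`, ANY frame, ANY centre line, contains (whole traces) weight `≤ Ac a b`.

EXITS
* `pk4_plank`      : `∀ e > 0 ∃ C ∀ D K ... : ∑ ω i #(inc i) ≤ C K^10 Ac D^e #J`                 (core convention of row 252: `C K^C`)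
* `pk4_plank_eta`  : the paper's form, `#(inc i) ≥ D^(1-η)`, `η = e / 20`
* `pk4_heavy`      : contrapositive: many weighted marks in few cells `⟹` a heavy plank          (uses in P2.16 and L5.1)
PROOF: rescale space by `1/K` (chart, `vis` become `1`), one instance of `R255.classical_growth` (BR Theorem 4.2) at `ε = ρ`, `t = L = 1` (`pk4_core`); small `D` trivially.
-/

set_option autoImplicit false

namespace Claimed.Agent.R252

open Claimed.Agent.R255 Claimed.Agent.R227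
open scoped BigOperators
open Classical

/-- the marks of a family of traces, with slack `K` -/
structure pk4Marks {ι J : Type} (D K : ℝ) (V A : ι → ℝ × ℝ) (tc : J → ℝ) (xc : J → ℝ × ℝ) (inc : ι → Finset J) :
    Prop where
  chart : ∀ i, |(V i).1| ≤ K ∧ |(V i).2| ≤ K ∧ |(A i).1| ≤ K ∧ |(A i).2| ≤ K
  time : ∀ i, ∀ j ∈ inc i, 0 ≤ tc j ∧ tc j ≤ 1
  vis : ∀ i, ∀ j ∈ inc i, |(A i + tc j • V i - xc j).1| ≤ K / D ∧ |(A i + tc j • V i - xc j).2| ≤ K / D
  mult : ∀ i (s : ℝ), (((inc i).filter fun j => s ≤ tc j ∧ tc j < s + 1 / D).card : ℝ) ≤ K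
  long : ∀ i, D / K ≤ ((inc i).card : ℝ)

variable {ι J : Type} [Fintype ι] [Fintype J] {D K Ac : ℝ} {ω : ι → ℝ} {V A : ι → ℝ × ℝ} {tc : J → ℝ} {xc : J → ℝ × ℝ}
  {inc : ι → Finset J}

omit [Fintype ι] [Fintype J] in
/-- **L-252-PLANK-M1**  a trace has at most `2 K D` marks.
PROOF.  `inc i ⊆ ⋃_{k ∈ range (⌊D⌋₊ + 1)} filter (k/D ≤ tc j < k/D + 1/D)` with `k = ⌊tc j * D⌋₊ ≤ ⌊D⌋₊` (`H.time`, `Nat.floor_le`, `Nat.lt_floor_add_one`); `Finset.card_biUnion_le`, `H.mult i (k/D)`;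
`(⌊D⌋₊ + 1) K ≤ 2 D K`. -/
theorem pk4_marks_le (hD : 1 ≤ D) (hK : 1 ≤ K) (H : pk4Marks D K V A tc xc inc) (i : ι) :
    ((inc i).card : ℝ) ≤ 2 * K * D := by
  have hD0 : 0 < D := by linarith
  have hsub : inc i ⊆ (Finset.range (⌊D⌋₊ + 1)).biUnion
      (fun k => (inc i).filter fun j => (k : ℝ) / D ≤ tc j ∧ tc j < (k : ℝ) / D + 1 / D) := by
    intro j hj
    obtain ⟨h0, h1⟩ := H.time i j hj
    have hnn : 0 ≤ tc j * D := by positivity
    rw [Finset.mem_biUnion]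
    refine ⟨⌊tc j * D⌋₊, ?_, ?_⟩
    · rw [Finset.mem_range, Nat.lt_succ_iff]
      exact Nat.floor_mono (by nlinarith)
    · rw [Finset.mem_filter]
      refine ⟨hj, ?_, ?_⟩
      · rw [div_le_iff₀ hD0]
        exact Nat.floor_le hnn
      · rw [← add_div, lt_div_iff₀ hD0]
        exact Nat.lt_floor_add_one _
  have h1 : ((inc i).card : ℝ) ≤ ∑ k ∈ Finset.range (⌊D⌋₊ + 1),
      (((inc i).filter fun j => (k : ℝ) / D ≤ tc j ∧ tc j < (k : ℝ) / D + 1 / D).card : ℝ) := by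
    exact_mod_cast (Finset.card_le_card hsub).trans Finset.card_biUnion_le
  have h2 : ∑ k ∈ Finset.range (⌊D⌋₊ + 1),
      (((inc i).filter fun j => (k : ℝ) / D ≤ tc j ∧ tc j < (k : ℝ) / D + 1 / D).card : ℝ) ≤ ((⌊D⌋₊ + 1 : ℕ) : ℝ) * K := by
    refine (Finset.sum_le_card_nsmul _ _ K fun k _ => H.mult i _).trans ?_
    rw [Finset.card_range, nsmul_eq_mul]
  have h3 : ((⌊D⌋₊ + 1 : ℕ) : ℝ) ≤ 2 * D := by
    push_cast
    have := Nat.floor_le hD0.le
    linarith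
  calc ((inc i).card : ℝ) ≤ ((⌊D⌋₊ + 1 : ℕ) : ℝ) * K := h1.trans h2
    _ ≤ 2 * D * K := mul_le_mul_of_nonneg_right h3 (by linarith)
    _ = _ := by ring

/-- `2^(-tlev d 1) ≤ d` (copy of `R227.ka_tlev`) -/
theorem pk4_tlev {d : ℝ} (h0 : 0 < d) : 1 / (2 : ℝ) ^ (tlev d 1) ≤ d := by
  have h1 : Real.logb 2 (1 / d) ≤ (tlev d 1 : ℝ) := by
    have h := Nat.le_ceil (1 * Real.logb 2 (1 / d))
    calc Real.logb 2 (1 / d) = 1 * Real.logb 2 (1 / d) := (one_mul _).symm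
      _ ≤ _ := h
  have h2 : 1 / d ≤ (2 : ℝ) ^ (tlev d 1) := by
    have h3 : (2 : ℝ) ^ (Real.logb 2 (1 / d)) = 1 / d :=
      Real.rpow_logb (by norm_num) (by norm_num) (by positivity)
    rw [← h3, ← Real.rpow_natCast]
    exact Real.rpow_le_rpow_of_exponent_le (by norm_num) h1
  rw [div_le_iff₀ (by positivity)]
  rw [div_le_iff₀ h0] at h2
  linarith

omit [Fintype ι] [Fintype J] in
/-- **L-252-PLANK-M2**  a dyadic time cell of depth `1` at `ε = 1/D` contains at most `K` marks.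
PROOF.  `tcell ε 1 c = ⌊c * 2^m⌋`, `m = tlev ε 1`, `1 / 2^m ≤ ε = 1/D` (`ka_tlev`, `R227/EndA/Sys.lean`; copy its 10 lines or import).   `⌊c 2^m⌋ = k ⟹ k / 2^m ≤ c < k / 2^m + 1 / 2^m` (`Int.floor_eq_iff`);
so the filter is contained in the filter of `H.mult i (k / 2^m)` (`Finset.card_le_card`). -/
theorem pk4_mult_cell (hD : 1 < D) (H : pk4Marks D K V A tc xc inc) (i : ι) (k : ℤ) :
    (((inc i).filter fun j => tcell (1 / D) 1 (tc j) = k).card : ℝ) ≤ K := by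
  have hD0 : 0 < D := by linarith
  have hm := pk4_tlev (d := 1 / D) (by positivity)
  have h2 : (0 : ℝ) < 2 ^ (tlev (1 / D) 1) := by positivity
  refine le_trans ?_ (H.mult i ((k : ℝ) / 2 ^ (tlev (1 / D) 1)))
  have hsub : ((inc i).filter fun j => tcell (1 / D) 1 (tc j) = k)
      ⊆ (inc i).filter fun j => (k : ℝ) / 2 ^ (tlev (1 / D) 1) ≤ tc j ∧ tc j < (k : ℝ) / 2 ^ (tlev (1 / D) 1) + 1 / D := by
    intro j hj
    obtain ⟨hj1, hj2⟩ := Finset.mem_filter.1 hj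
    have hf := Int.floor_eq_iff.1 (show ⌊tc j * 2 ^ (tlev (1 / D) 1)⌋ = k from hj2)
    refine Finset.mem_filter.2 ⟨hj1, ?_, ?_⟩
    · rw [div_le_iff₀ h2]
      exact hf.1
    · have h3 : tc j < ((k : ℝ) + 1) / 2 ^ (tlev (1 / D) 1) := by
        rw [lt_div_iff₀ h2]
        exact hf.2
      rw [add_div] at h3
      linarith
  exact_mod_cast Finset.card_le_card hsub

theorem pk4_ip_scale {K : ℝ} (hK : K ≠ 0) (A x w : ℝ × ℝ) : ip (A - K • x) w = K * ip (K⁻¹ • A - x) w := by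
  simp only [ip, Prod.fst_sub, Prod.snd_sub, Prod.smul_fst, Prod.smul_snd, smul_eq_mul]
  field_simp

theorem pk4_ip_scale2 {K : ℝ} (hK : K ≠ 0) (A V x v w : ℝ × ℝ) :
    ip (A + V - (K • x + K • v)) w = K * ip (K⁻¹ • A - x) w + K * ip (K⁻¹ • V - v) w := by
  simp only [ip, Prod.fst_sub, Prod.snd_sub, Prod.fst_add, Prod.snd_add, Prod.smul_fst, Prod.smul_snd, smul_eq_mul]
  field_simp
  ring

theorem pk4_ceil_le {K x : ℝ} (hK : 1 ≤ K) (h0 : 0 ≤ x) (hx : x ≤ 2 * K) : ((⌈x⌉₊ : ℕ) : ℝ) ≤ 3 * K := by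
  have := Nat.ceil_lt_add_one h0
  linarith

/-- **L-252-PLANK-M3**  the root cap of the rescaled traces.
PROOF.  `ε = 1/D`.   `g.RootCompat 1 ε 1 (K⁻¹ • V i) (K⁻¹ • A i)` gives `|ip (K⁻¹ V - g.vc) (tang th)| ≤ ε^b`, `.. (nrm th) ≤ ε^a`, the same for `K⁻¹ A - g.xc`; multiply by `K` :
`|ip (A - K g.xc) (tang th)| ≤ K ε^b`, `|ip (A + V - (K g.xc + K g.vc)) (tang th)| ≤ 2 K ε^b`, the same with `nrm`, `ε^a`; so `pk4In (P / D) (Q / D) g.th (K • g.xc) (K • g.vc) (A i) (V i)` (`pk4_in_iff`) with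
`P = 2 K D ε^b`, `Q = 2 K D ε^a`.   `ε ≤ ε^a ≤ ε^b ≤ 1` (`0 ≤ b ≤ a ≤ 1`), so `1 ≤ 2 K ≤ Q ≤ P`, `P / D, Q / D ≤ 2 K`, `⌈P / D⌉₊, ⌈Q / D⌉₊ ≤ 2 K + 1 ≤ 3 K`.
`pk4_cap_big` : `≤ 4 Ac P Q (3K)² = 144 K⁴ Ac D² ε^(a+b)` (`Real.rpow_add`; `Ac ≥ 0` by `pk4_cap_nonneg`);  the sum over the smaller filter is smaller (`Finset.sum_le_sum_of_subset_of_nonneg`). -/
theorem pk4_root_cap (hD : 1 < D) (hK : 1 ≤ K) (hω : ∀ i, 0 ≤ ω i) (h : pk4Cap D Ac ω V A) (g : Geo) (hb : 0 ≤ g.b)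
    (hba : g.b ≤ g.a) (ha : g.a ≤ 1) :
    ∑ i with g.RootCompat 1 (1 / D) 1 (K⁻¹ • V i) (K⁻¹ • A i), ω i
      ≤ 144 * K ^ 4 * Ac * D ^ 2 * (1 / D) ^ (g.a + g.b) := by
  have hD0 : 0 < D := by linarith
  have hK0 : 0 < K := by linarith
  have hAc := pk4_cap_nonneg hD.le hω h
  set ε : ℝ := 1 / D with hε
  have hε0 : 0 < ε := by positivity
  have hε1 : ε ≤ 1 := by rw [hε, div_le_one hD0]; exact hD.le
  have hDε : D * ε = 1 := by rw [hε]; field_simp
  have hb1 : g.b ≤ 1 := hba.trans ha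
  have ha0 : 0 ≤ g.a := hb.trans hba
  have eb0 : 0 < ε ^ g.b := Real.rpow_pos_of_pos hε0 _
  have ea0 : 0 < ε ^ g.a := Real.rpow_pos_of_pos hε0 _
  have eb1 : ε ^ g.b ≤ 1 := Real.rpow_le_one hε0.le hε1 hb
  have ea1 : ε ^ g.a ≤ 1 := Real.rpow_le_one hε0.le hε1 ha0
  have ebl : ε ≤ ε ^ g.b := by
    have := Real.rpow_le_rpow_of_exponent_ge hε0 hε1 hb1
    rwa [Real.rpow_one] at this
  have eal : ε ≤ ε ^ g.a := by
    have := Real.rpow_le_rpow_of_exponent_ge hε0 hε1 ha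
    rwa [Real.rpow_one] at this
  have hP : 1 ≤ 2 * K * D * ε ^ g.b := by
    have : 1 ≤ D * ε ^ g.b := by rw [← hDε]; exact mul_le_mul_of_nonneg_left ebl hD0.le
    nlinarith
  have hQ : 1 ≤ 2 * K * D * ε ^ g.a := by
    have : 1 ≤ D * ε ^ g.a := by rw [← hDε]; exact mul_le_mul_of_nonneg_left eal hD0.le
    nlinarith
  have hPD : 2 * K * D * ε ^ g.b / D = 2 * K * ε ^ g.b := by field_simp
  have hQD : 2 * K * D * ε ^ g.a / D = 2 * K * ε ^ g.a := by field_simp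
  have big := pk4_cap_big hD.le hω h (2 * K * D * ε ^ g.b) (2 * K * D * ε ^ g.a) g.th (K • g.xc) (K • g.vc) hP hQ
  have hsub : ∑ i with g.RootCompat 1 ε 1 (K⁻¹ • V i) (K⁻¹ • A i), ω i
      ≤ ∑ i with pk4In (2 * K * D * ε ^ g.b / D) (2 * K * D * ε ^ g.a / D) g.th (K • g.xc) (K • g.vc) (A i) (V i), ω i := by
    refine Finset.sum_le_sum_of_subset_of_nonneg ?_ fun i _ _ => hω i
    intro i hi
    rw [Finset.mem_filter] at hi ⊢
    refine ⟨hi.1, ?_⟩
    obtain ⟨-, -, -, ⟨v1, v2⟩, ⟨a1, a2⟩⟩ := hi.2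
    rw [one_mul] at v1 v2 a1 a2
    rw [hPD, hQD, pk4_in_iff, pk4_ip_scale hK0.ne', pk4_ip_scale hK0.ne', pk4_ip_scale2 hK0.ne', pk4_ip_scale2 hK0.ne']
    have e1 : ∀ x y : ℝ, |x| ≤ y → |K * x| ≤ K * y := by
      intro x y hxy
      rw [abs_mul, abs_of_pos hK0]
      exact mul_le_mul_of_nonneg_left hxy hK0.le
    refine ⟨⟨?_, ?_⟩, ?_, ?_⟩
    · have := e1 _ _ a1
      nlinarith
    · have := e1 _ _ a2
      nlinarith
    · have := (abs_add_le _ _).trans (add_le_add (e1 _ _ a1) (e1 _ _ v1))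
      linarith
    · have := (abs_add_le _ _).trans (add_le_add (e1 _ _ a2) (e1 _ _ v2))
      linarith
  refine hsub.trans (big.trans ?_)
  rw [hPD, hQD]
  have c1 : ((⌈2 * K * ε ^ g.b⌉₊ : ℕ) : ℝ) ≤ 3 * K := pk4_ceil_le hK (by positivity) (by nlinarith)
  have c2 : ((⌈2 * K * ε ^ g.a⌉₊ : ℕ) : ℝ) ≤ 3 * K := pk4_ceil_le hK (by positivity) (by nlinarith)
  have hadd : ε ^ (g.a + g.b) = ε ^ g.a * ε ^ g.b := Real.rpow_add hε0 _ _
  rw [hadd]
  calc 4 * Ac * (2 * K * D * ε ^ g.b) * (2 * K * D * ε ^ g.a) * ((⌈2 * K * ε ^ g.b⌉₊ : ℕ) : ℝ) * ((⌈2 * K * ε ^ g.a⌉₊ : ℕ) : ℝ)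
      ≤ 4 * Ac * (2 * K * D * ε ^ g.b) * (2 * K * D * ε ^ g.a) * (3 * K) * (3 * K) := by
        refine mul_le_mul (mul_le_mul_of_nonneg_left c1 (by positivity)) c2 (by positivity) (by positivity)
    _ = _ := by ring

/-- **L-252-PLANK-M4**  the trivial bound.
PROOF.  every trace lies in the plank `pk4In (P / D) (P / D) 0 0 0`, `P = 2 K D` (`H.chart`; `tang 0 = (1,0)`, `nrm 0 = (0,1)`, `|A + t V| ≤ 2 K`), so `∑ ω i ≤ 4 Ac P² ⌈2K⌉₊² ≤ 144 K⁴ D² Ac` (`pk4_cap_big`);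
`pk4W ≤ 2 K D ∑ ω i` (`pk4_marks_le`). -/
theorem pk4_small (hD : 1 ≤ D) (hK : 1 ≤ K) (hω : ∀ i, 0 ≤ ω i) (h : pk4Cap D Ac ω V A)
    (H : pk4Marks D K V A tc xc inc) : pk4W ω inc ≤ 288 * K ^ 5 * D ^ 3 * Ac := by
  have hD0 : 0 < D := by linarith
  have hK0 : 0 < K := by linarith
  have hAc := pk4_cap_nonneg hD hω h
  have hP : 1 ≤ 2 * K * D := by nlinarith
  have hPD : 2 * K * D / D = 2 * K := by field_simp
  have big := pk4_cap_big hD hω h (2 * K * D) (2 * K * D) 0 0 0 hP hP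
  have hall : ∑ i, ω i = ∑ i with pk4In (2 * K * D / D) (2 * K * D / D) 0 0 0 (A i) (V i), ω i := by
    rw [Finset.filter_true_of_mem]
    intro i _ t h0 h1
    obtain ⟨v1, v2, a1, a2⟩ := H.chart i
    rw [hPD]
    simp only [ip, tang, nrm, Real.cos_zero, Real.sin_zero, smul_zero, add_zero, sub_zero, Prod.fst_add, Prod.snd_add,
      Prod.smul_fst, Prod.smul_snd, smul_eq_mul, mul_one, mul_zero, neg_zero, zero_add]
    have e : ∀ x y : ℝ, |x| ≤ K → |y| ≤ K → |x + t * y| ≤ 2 * K := by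
      intro x y hx hy
      have h2 : |t * y| ≤ K := by
        rw [abs_mul, abs_of_nonneg h0]
        calc t * |y| ≤ 1 * K := mul_le_mul h1 hy (abs_nonneg _) zero_le_one
          _ = K := one_mul _
      have := abs_add_le x (t * y)
      linarith
    exact ⟨e _ _ a1 v1, e _ _ a2 v2⟩
  have c1 : ((⌈2 * K⌉₊ : ℕ) : ℝ) ≤ 3 * K := pk4_ceil_le hK (by positivity) le_rfl
  have hsum : ∑ i, ω i ≤ 144 * K ^ 4 * D ^ 2 * Ac := by
    rw [hall]
    refine big.trans ?_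
    rw [hPD]
    calc 4 * Ac * (2 * K * D) * (2 * K * D) * ((⌈2 * K⌉₊ : ℕ) : ℝ) * ((⌈2 * K⌉₊ : ℕ) : ℝ)
        ≤ 4 * Ac * (2 * K * D) * (2 * K * D) * (3 * K) * (3 * K) := by
          refine mul_le_mul (mul_le_mul_of_nonneg_left c1 (by positivity)) c1 (by positivity) (by positivity)
      _ = _ := by ring
  calc pk4W ω inc = ∑ i, ω i * ((inc i).card : ℝ) := rfl
    _ ≤ ∑ i, ω i * (2 * K * D) := Finset.sum_le_sum fun i _ => mul_le_mul_of_nonneg_left (pk4_marks_le hD hK H i) (hω i)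
    _ = (∑ i, ω i) * (2 * K * D) := by rw [Finset.sum_mul]
    _ ≤ (144 * K ^ 4 * D ^ 2 * Ac) * (2 * K * D) := mul_le_mul_of_nonneg_right hsum (by positivity)
    _ = _ := by ring

/-- large `D` : one instance of (4.5) -/
theorem pk4_large {γ ν : ℝ} (hγ : 0 ≤ γ) (hD : 1 < D) (hK : 1 ≤ K)
    (hU : ∀ (S : CSys) (Γ : Type) (G : S.Ω → Γ) (geo : Γ → Geo), S.Bdd 1 →
      S.IsLabel 1 (1 / D) 1 1 G geo → S.score γ (1 / D) 1 G geo ≤ S.tau γ (1 / D) 1 + γ * 1 + ν)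
    (hω : ∀ i, 0 ≤ ω i) (h : pk4Cap D Ac ω V A) (H : pk4Marks D K V A tc xc inc) :
    pk4W ω inc ≤ 288 * K ^ 10 * Ac * D ^ (γ + ν) * (Fintype.card J : ℝ) := by
  have hD0 : 0 < D := by linarith
  have hK0 : 0 < K := by linarith
  have hAc := pk4_cap_nonneg hD.le hω h
  rcases le_or_gt (pk4W ω inc) 0 with hW | hW
  · exact hW.trans (by positivity)
  have hsm := pk4_small hD.le hK hω h H
  have hAc0 : 0 < Ac := by
    by_contra hc
    have h0 : Ac = 0 := le_antisymm (not_lt.1 hc) hAc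
    rw [h0, mul_zero] at hsm
    linarith
  have hε0 : 0 < 1 / D := by positivity
  have hε1 : 1 / D < 1 := by rw [div_lt_one hD0]; exact hD
  have key := pk4_core ω inc hω hW (fun i => K⁻¹ • V i) (fun i => K⁻¹ • A i) tc (fun j => K⁻¹ • xc j)
    (γ := γ) (ν := ν) (ε := 1 / D) (n₀ := D / K) (n₁ := 2 * K * D) (κ := K) (R := 144 * K ^ 4 * Ac * D ^ 2)
    hγ hε0 hε1 hU (by positivity) H.long (pk4_marks_le hD.le hK H) hK0 (pk4_mult_cell hD H)
    (by
      intro i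
      obtain ⟨v1, v2, a1, a2⟩ := H.chart i
      have e : ∀ x : ℝ, |x| ≤ K → |K⁻¹ * x| ≤ 1 := by
        intro x hx
        rw [abs_mul, abs_of_pos (inv_pos.2 hK0), inv_mul_le_iff₀ hK0, mul_one]
        exact hx
      exact ⟨e _ v1, e _ v2, e _ a1, e _ a2⟩)
    (by
      intro i j hj
      obtain ⟨t0, t1⟩ := H.time i j hj
      rw [abs_le]
      constructor <;> linarith)
    (by
      intro i j hj
      obtain ⟨q1, q2⟩ := H.vis i j hj
      have e : ∀ x : ℝ, |x| ≤ K / D → |K⁻¹ * x| ≤ 1 / D := by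
        intro x hx
        rw [abs_mul, abs_of_pos (inv_pos.2 hK0), inv_mul_le_iff₀ hK0]
        calc |x| ≤ K / D := hx
          _ = K * (1 / D) := by ring
      have e1 : (K⁻¹ • A i + tc j • K⁻¹ • V i - K⁻¹ • xc j) = K⁻¹ • (A i + tc j • V i - xc j) := by
        rw [smul_sub, smul_add, smul_comm]
      rw [e1]
      exact ⟨e _ q1, e _ q2⟩)
    (by positivity) (fun g hb hba ha => pk4_root_cap hD hK hω h g hb hba ha)
  refine key.trans (le_of_eq ?_)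
  have e2 : (1 / D) ^ (-(γ + ν)) = D ^ (γ + ν) := by
    rw [one_div, Real.inv_rpow hD0.le, Real.rpow_neg hD0.le, inv_inv]
  rw [e2]
  field_simp
  ring

/-- **LEMMA 2.15** (weighted full-time plank estimate), core form -/
theorem pk4_plank (e : ℝ) (he : 0 < e) :
    ∃ C : ℝ, 1 ≤ C ∧ ∀ (D K : ℝ), 1 ≤ D → 1 ≤ K → ∀ (ι J : Type) [Fintype ι] [Fintype J] (ω : ι → ℝ)
      (V A : ι → ℝ × ℝ) (tc : J → ℝ) (xc : J → ℝ × ℝ) (inc : ι → Finset J) (Ac : ℝ),
      (∀ i, 0 ≤ ω i) → pk4Cap D Ac ω V A → pk4Marks D K V A tc xc inc →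
      ∑ i, ω i * ((inc i).card : ℝ) ≤ C * K ^ 10 * Ac * D ^ e * (Fintype.card J : ℝ) := by
  set γ : ℝ := min e 1 / 2 with hγ
  have hγ0 : 0 < γ := by
    rw [hγ]
    have : 0 < min e 1 := lt_min he one_pos
    linarith
  have hγ1 : γ < 1 := by
    rw [hγ]
    have : min e 1 ≤ 1 := min_le_right _ _
    linarith
  have hγe : γ + γ ≤ e := by
    rw [hγ]
    have : min e 1 ≤ e := min_le_left _ _
    linarith
  obtain ⟨ε₀, hε₀, hε₀1, HU⟩ := classical_growth γ hγ0 hγ1 1 1 1 1 γ one_pos hγ0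
  have h1ε : 1 ≤ 1 / ε₀ := by
    rw [le_div_iff₀ hε₀]
    linarith
  refine ⟨288 * (1 / ε₀) ^ 3, by nlinarith [pow_le_pow_left₀ zero_le_one h1ε 3], ?_⟩
  intro D K hD hK ι J _ _ ω V A tc xc inc Ac hω hcap H
  have hD0 : 0 < D := by linarith
  have hAc := pk4_cap_nonneg hD hω hcap
  have hDe : 1 ≤ D ^ e := Real.one_le_rpow hD he.le
  show pk4W ω inc ≤ _
  rcases lt_or_ge (1 / D) ε₀ with hlt | hge
  · -- large `D`
    have hD1 : 1 < D := by
      have : 1 / D < 1 := hlt.trans hε₀1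
      rw [div_lt_one hD0] at this
      exact this
    have h1 := pk4_large (γ := γ) (ν := γ) hγ0.le hD1 hK
      (fun S Γ G geo hB hL => HU (1 / D) (by positivity) hlt 1 1 le_rfl le_rfl le_rfl S Γ G geo hB hL) hω hcap H
    refine h1.trans ?_
    have h2 : D ^ (γ + γ) ≤ D ^ e := Real.rpow_le_rpow_of_exponent_le hD hγe
    have h3 : (1 : ℝ) ≤ (1 / ε₀) ^ 3 := one_le_pow₀ h1ε
    have h4 : 0 ≤ K ^ 10 * Ac * (Fintype.card J : ℝ) := by positivity
    have h5 : 0 < D ^ (γ + γ) := Real.rpow_pos_of_pos hD0 _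
    calc 288 * K ^ 10 * Ac * D ^ (γ + γ) * (Fintype.card J : ℝ)
        = 288 * (K ^ 10 * Ac * (Fintype.card J : ℝ)) * (1 * D ^ (γ + γ)) := by ring
      _ ≤ 288 * (K ^ 10 * Ac * (Fintype.card J : ℝ)) * ((1 / ε₀) ^ 3 * D ^ e) := by
          refine mul_le_mul_of_nonneg_left ?_ (by positivity)
          exact mul_le_mul h3 h2 h5.le (by positivity)
      _ = _ := by ring
  · -- small `D`
    rcases le_or_gt (pk4W ω inc) 0 with hW | hW
    · exact hW.trans (by positivity)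
    have hJ : (1 : ℝ) ≤ Fintype.card J := by
      obtain ⟨i, hi⟩ : ∃ i, 0 < ω i * ((inc i).card : ℝ) := by
        by_contra hc
        push Not at hc
        have : pk4W ω inc ≤ 0 := Finset.sum_nonpos fun i _ => hc i
        linarith
      have hc : 0 < (inc i).card := by
        rcases Nat.eq_zero_or_pos (inc i).card with h0 | h0
        · rw [h0] at hi; simp at hi
        · exact h0
      obtain ⟨j, -⟩ := Finset.card_pos.1 hc
      have : Nonempty J := ⟨j⟩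
      exact_mod_cast Fintype.card_pos
    have h1 := pk4_small hD hK hω hcap H
    refine h1.trans ?_
    have hDle : D ≤ 1 / ε₀ := by
      rw [le_div_iff₀ hD0] at hge
      rw [le_div_iff₀ hε₀]
      linarith
    have h2 : D ^ 3 ≤ (1 / ε₀) ^ 3 := pow_le_pow_left₀ hD0.le hDle 3
    have h3 : K ^ 5 ≤ K ^ 10 := pow_le_pow_right₀ hK (by norm_num)
    have h4 : (1 : ℝ) ≤ D ^ e * (Fintype.card J : ℝ) := by nlinarith
    have h5 : 0 ≤ K ^ 5 := by positivity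
    have h6 : 0 ≤ D ^ 3 := by positivity
    calc 288 * K ^ 5 * D ^ 3 * Ac = 288 * Ac * (K ^ 5 * D ^ 3) * 1 := by ring
      _ ≤ 288 * Ac * (K ^ 10 * (1 / ε₀) ^ 3) * (D ^ e * (Fintype.card J : ℝ)) := by
          refine mul_le_mul ?_ h4 zero_le_one (by positivity)
          refine mul_le_mul_of_nonneg_left ?_ (by positivity)
          exact mul_le_mul h3 h2 h6 (by positivity)
      _ = _ := by ring

end Claimed.Agent.R252
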